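import Mathlib

set_option autoImplicit false

namespace Crest.Agent.R19

open Finset

/-- Elementary symmetric sums of the weights `w p`, `p ∈ Q`. -/
noncomputable def esym (w : ℕ → ℝ) (Q : Finset ℕ) (i : ℕ) : ℝ :=
  ∑ S ∈ powersetCard i Q, ∏ p ∈ S, w p

theorem esym_zero (w : ℕ → ℝ) (Q : Finset ℕ) : esym w Q 0 = 1 := by
  simp [esym]

theorem esym_empty (w : ℕ → ℝ) (i : ℕ) : esym w ∅ (i + 1) = 0 := by
  unfold esym
  rw [Finset.powersetCard_eq_empty.2 (by simp)]
  simp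

theorem esym_insert (w : ℕ → ℝ) (Q : Finset ℕ) (p : ℕ) (hp : p ∉ Q) (i : ℕ) :
    esym w (insert p Q) (i + 1) = esym w Q (i + 1) + w p * esym w Q i := by
  unfold esym
  rw [Finset.powersetCard_succ_insert hp, Finset.sum_union, Finset.sum_image, Finset.mul_sum]
  · congr 1
    refine Finset.sum_congr rfl fun S hS => ?_
    have : p ∉ S := fun h => hp ((Finset.mem_powersetCard.1 hS).1 h)
    rw [Finset.prod_insert this]
  · intro S hS T hT h
    have h1 : p ∉ S := fun h => hp ((Finset.mem_powersetCard.1 hS).1 h)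
    have h2 : p ∉ T := fun h => hp ((Finset.mem_powersetCard.1 hT).1 h)
    rw [← Finset.erase_insert h1, ← Finset.erase_insert h2, h]
  · rw [Finset.disjoint_left]
    intro S hS hS'
    obtain ⟨T, _, rfl⟩ := Finset.mem_image.1 hS'
    exact hp ((Finset.mem_powersetCard.1 hS).1 (Finset.mem_insert_self _ _))

theorem esym_nonneg (w : ℕ → ℝ) (Q : Finset ℕ) (hw : ∀ p ∈ Q, 0 ≤ w p) (i : ℕ) :
    0 ≤ esym w Q i :=
  Finset.sum_nonneg fun _ hS => Finset.prod_nonneg fun p hp =>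
    hw p ((Finset.mem_powersetCard.1 hS).1 hp)

theorem pow_add_mul_le (a b : ℝ) (ha : 0 ≤ a) (hb : 0 ≤ b) (n : ℕ) :
    a ^ (n + 1) + (n + 1) * b * a ^ n ≤ (b + a) ^ (n + 1) := by
  induction n with
  | zero => simp; linarith
  | succ n ih =>
    have h1 : 0 ≤ a ^ n := pow_nonneg ha n
    calc a ^ (n + 1 + 1) + ((n + 1 : ℕ) + 1) * b * a ^ (n + 1)
        ≤ (a ^ (n + 1) + (n + 1) * b * a ^ n) * (b + a) := by
          push_cast
          have : 0 ≤ ((n : ℝ) + 1) * b * b * a ^ n := by positivity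
          rw [pow_succ, pow_succ]
          nlinarith
      _ ≤ (b + a) ^ (n + 1) * (b + a) := by gcongr
      _ = (b + a) ^ (n + 1 + 1) := by ring

theorem esym_le (w : ℕ → ℝ) (Q : Finset ℕ) (hw : ∀ p ∈ Q, 0 ≤ w p) (i : ℕ) :
    esym w Q i ≤ (∑ p ∈ Q, w p) ^ i / (i.factorial : ℝ) := by
  induction Q using Finset.induction_on generalizing i with
  | empty =>
    cases i with
    | zero => simp [esym_zero]
    | succ i => simp [esym_empty]
  | insert p Q hp ih =>
    have hw' : ∀ x ∈ Q, 0 ≤ w x := fun x hx => hw x (Finset.mem_insert_of_mem hx)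
    have hwp : 0 ≤ w p := hw p (Finset.mem_insert_self _ _)
    cases i with
    | zero => simp [esym_zero]
    | succ i =>
      rw [esym_insert w Q p hp, Finset.sum_insert hp]
      have h1 := ih hw' (i + 1)
      have h2 := ih hw' i
      have h3 := pow_add_mul_le (∑ x ∈ Q, w x) (w p) (Finset.sum_nonneg hw') hwp i
      have h4 : (0 : ℝ) < (i.factorial : ℝ) := by exact_mod_cast Nat.factorial_pos i
      have h5 : ((i + 1).factorial : ℝ) = (i + 1) * (i.factorial : ℝ) := by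
        rw [Nat.factorial_succ]; push_cast; ring
      calc esym w Q (i + 1) + w p * esym w Q i
          ≤ (∑ x ∈ Q, w x) ^ (i + 1) / ((i + 1).factorial : ℝ)
            + w p * ((∑ x ∈ Q, w x) ^ i / (i.factorial : ℝ)) := by gcongr
        _ = ((∑ x ∈ Q, w x) ^ (i + 1) + (i + 1) * w p * (∑ x ∈ Q, w x) ^ i)
            / ((i + 1).factorial : ℝ) := by
            rw [h5]; field_simp
        _ ≤ _ := by gcongr

/-- Truncated inclusion-exclusion sum. -/
noncomputable def trunc (w : ℕ → ℝ) (Q : Finset ℕ) (m : ℕ) : ℝ :=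
  ∑ i ∈ range (m + 1), (-1) ^ i * esym w Q i

theorem trunc_zero (w : ℕ → ℝ) (Q : Finset ℕ) : trunc w Q 0 = 1 := by
  simp [trunc, esym_zero]

theorem trunc_succ (w : ℕ → ℝ) (Q : Finset ℕ) (m : ℕ) :
    trunc w Q (m + 1) = trunc w Q m + (-1) ^ (m + 1) * esym w Q (m + 1) := by
  unfold trunc; rw [Finset.sum_range_succ]

theorem trunc_empty (w : ℕ → ℝ) (m : ℕ) : trunc w ∅ m = 1 := by
  induction m with
  | zero => exact trunc_zero _ _
  | succ m ih => rw [trunc_succ, ih, esym_empty]; simp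

theorem trunc_insert (w : ℕ → ℝ) (Q : Finset ℕ) (p : ℕ) (hp : p ∉ Q) (m : ℕ) :
    trunc w (insert p Q) (m + 1) = trunc w Q (m + 1) - w p * trunc w Q m := by
  induction m with
  | zero => rw [trunc_succ, trunc_succ, trunc_zero, trunc_zero, esym_insert w Q p hp, esym_zero]; ring
  | succ m ih =>
    rw [trunc_succ, ih, esym_insert w Q p hp, trunc_succ w Q (m + 1), trunc_succ w Q m]
    ring

/-- Bonferroni's inequalities. -/
theorem bonferroni (w : ℕ → ℝ) (Q : Finset ℕ) (h0 : ∀ p ∈ Q, 0 ≤ w p) (h1 : ∀ p ∈ Q, w p ≤ 1)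
    (m : ℕ) : 0 ≤ (-1) ^ m * (trunc w Q m - ∏ p ∈ Q, (1 - w p)) := by
  induction Q using Finset.induction_on generalizing m with
  | empty => simp [trunc_empty]
  | insert p Q hp ih =>
    have h0' : ∀ x ∈ Q, 0 ≤ w x := fun x hx => h0 x (Finset.mem_insert_of_mem hx)
    have h1' : ∀ x ∈ Q, w x ≤ 1 := fun x hx => h1 x (Finset.mem_insert_of_mem hx)
    have hwp : 0 ≤ w p := h0 p (Finset.mem_insert_self _ _)
    cases m with
    | zero =>
      rw [trunc_zero]
      have : ∏ x ∈ insert p Q, (1 - w x) ≤ 1 :=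
        Finset.prod_le_one (fun x hx => by linarith [h1 x hx]) (fun x hx => by linarith [h0 x hx])
      simp only [pow_zero, one_mul]; linarith
    | succ m =>
      rw [trunc_insert w Q p hp, Finset.prod_insert hp]
      have a1 := ih h0' h1' (m + 1)
      have a2 := mul_nonneg hwp (ih h0' h1' m)
      have : (-1 : ℝ) ^ (m + 1) * (trunc w Q (m + 1) - w p * trunc w Q m
          - (1 - w p) * ∏ x ∈ Q, (1 - w x))
          = (-1) ^ (m + 1) * (trunc w Q (m + 1) - ∏ x ∈ Q, (1 - w x))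
            + w p * ((-1) ^ m * (trunc w Q m - ∏ x ∈ Q, (1 - w x))) := by ring
      rw [this]; linarith

theorem prod_le_trunc (w : ℕ → ℝ) (Q : Finset ℕ) (h0 : ∀ p ∈ Q, 0 ≤ w p) (h1 : ∀ p ∈ Q, w p ≤ 1)
    (m : ℕ) (hm : Even m) : ∏ p ∈ Q, (1 - w p) ≤ trunc w Q m := by
  have := bonferroni w Q h0 h1 m
  rw [hm.neg_one_pow] at this; linarith

theorem trunc_sub_le (w : ℕ → ℝ) (Q : Finset ℕ) (h0 : ∀ p ∈ Q, 0 ≤ w p) (h1 : ∀ p ∈ Q, w p ≤ 1)
    (m : ℕ) (hm : Even m) : trunc w Q m - esym w Q (m + 1) ≤ ∏ p ∈ Q, (1 - w p) := by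
  have := bonferroni w Q h0 h1 (m + 1)
  rw [trunc_succ, hm.add_one.neg_one_pow] at this; linarith

theorem sum_choose_le (N n : ℕ) : ∑ i ∈ range (n + 1), N.choose i ≤ (N + 1) ^ n := by
  rw [add_pow]
  refine Finset.sum_le_sum fun i hi => ?_
  have h1 : N.choose i ≤ N ^ i := Nat.choose_le_pow N i
  have h2 : 1 ≤ n.choose i := Nat.choose_pos (Nat.lt_succ_iff.1 (Finset.mem_range.1 hi))
  simp only [one_pow, mul_one, Nat.cast_id]
  nlinarith

theorem exp_le_prod (w : ℕ → ℝ) (Q : Finset ℕ) (h0 : ∀ p ∈ Q, 0 ≤ w p)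
    (h1 : ∀ p ∈ Q, w p ≤ 1 / 2) (h4 : ∑ p ∈ Q, w p ≤ 4) : 1 / 6561 ≤ ∏ p ∈ Q, (1 - w p) := by
  have h2 : ∏ p ∈ Q, Real.exp (-2 * w p) ≤ ∏ p ∈ Q, (1 - w p) := by
    refine Finset.prod_le_prod (fun p _ => (Real.exp_pos _).le) fun p hp => ?_
    have a := h0 p hp
    have b := h1 p hp
    have c : 1 + 2 * w p ≤ Real.exp (2 * w p) := by linarith [Real.add_one_le_exp (2 * w p)]
    have d : Real.exp (-2 * w p) * Real.exp (2 * w p) = 1 := by
      rw [← Real.exp_add]; simp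
    have e := Real.exp_pos (-2 * w p)
    have f := Real.exp_pos (2 * w p)
    by_contra hcon
    push Not at hcon
    have g : (1 - w p) * (1 + 2 * w p) < Real.exp (-2 * w p) * Real.exp (2 * w p) :=
      mul_lt_mul hcon c (by linarith) e.le
    nlinarith
  rw [← Real.exp_sum, ← Finset.mul_sum] at h2
  refine le_trans ?_ h2
  have h3 : Real.exp (-8) ≤ Real.exp (-2 * ∑ p ∈ Q, w p) := Real.exp_le_exp.2 (by linarith)
  refine le_trans ?_ h3
  have h5 : Real.exp 8 ≤ 6561 := by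
    have : Real.exp 8 = Real.exp 1 ^ 8 := by rw [← Real.exp_nat_mul]; norm_num
    rw [this]
    calc Real.exp 1 ^ 8 ≤ 3 ^ 8 :=
          pow_le_pow_left₀ (Real.exp_pos 1).le Real.exp_one_lt_three.le 8
      _ = 6561 := by norm_num
  rw [Real.exp_neg, ← one_div]
  exact one_div_le_one_div_of_le (Real.exp_pos 8) h5

theorem tail_le (s : ℕ) :
    (4 : ℝ) ^ (16 + 2 * s + 1) / ((16 + 2 * s + 1).factorial : ℝ) ≤ (1 / 2) ^ (s + 1) / 6561 := by
  induction s with
  | zero => norm_num [Nat.factorial]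
  | succ s ih =>
    have e1 : 16 + 2 * (s + 1) + 1 = (16 + 2 * s + 1) + 1 + 1 := by ring
    rw [e1, Nat.factorial_succ, Nat.factorial_succ]
    set n := 16 + 2 * s + 1 with hn
    have hn' : (17 : ℝ) ≤ n := by
      have : 17 ≤ n := by omega
      exact_mod_cast this
    have hf : (0 : ℝ) < (n.factorial : ℝ) := by exact_mod_cast Nat.factorial_pos n
    have : (4 : ℝ) ^ (n + 1 + 1) / (((n + 1 + 1) * ((n + 1) * n.factorial) : ℕ) : ℝ)
        = (4 : ℝ) ^ n / (n.factorial : ℝ) * (16 / ((n + 1 + 1) * (n + 1))) := by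
      push_cast; field_simp; ring
    rw [this]
    have h2 : (16 : ℝ) / ((n + 1 + 1) * (n + 1)) ≤ 1 / 2 := by
      rw [div_le_iff₀ (by positivity)]; nlinarith
    calc (4 : ℝ) ^ n / (n.factorial : ℝ) * (16 / ((n + 1 + 1) * (n + 1)))
        ≤ ((1 / 2) ^ (s + 1) / 6561) * (1 / 2) := by gcongr
      _ = (1 / 2) ^ (s + 1 + 1) / 6561 := by ring

end Crest.Agent.R19
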