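import Mathlib
import Crest.Agent.R19.Esym

set_option autoImplicit false

namespace Crest.Agent.R19

open Finset

section

variable (q ρ L : ℕ)

/-- Indicator that `p` divides the `h`-th term of the progression. -/
noncomputable def ind (h p : ℕ) : ℝ := if p ∣ ρ + q * h then 1 else 0

/-- Admissible sets of primes. -/
def Adm (R : Finset ℕ) : Prop := ∀ p ∈ R, p.Prime ∧ ¬ p ∣ q

/-- `φ` has mean `μ` with error `B`, on all progressions given by primes outside `P`. -/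
def Good (P : Finset ℕ) (φ : ℕ → ℝ) (μ B : ℝ) : Prop :=
  ∀ R : Finset ℕ, Adm q R → Disjoint R P →
    |∑ h ∈ range L, (∏ p ∈ R, ind q ρ h p) * φ h - L * μ * ∏ p ∈ R, (1 / (p : ℝ))| ≤ B

theorem ind_nonneg (h p : ℕ) : 0 ≤ ind q ρ h p := by unfold ind; split_ifs <;> norm_num

theorem ind_le_one (h p : ℕ) : ind q ρ h p ≤ 1 := by unfold ind; split_ifs <;> norm_num

theorem count_dvd (m : ℕ) (hm : 0 < m) (hq : Nat.Coprime q m) :
    |∑ h ∈ range L, (if m ∣ ρ + q * h then (1 : ℝ) else 0) - L * (1 / (m : ℝ))| ≤ 1 := by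
  obtain ⟨a, -, ha⟩ := Nat.exists_mul_mod_eq_of_coprime (ρ * (m - 1)) hq hm.ne'
  have hiff : ∀ h, m ∣ ρ + q * h ↔ h ≡ a [MOD m] := by
    intro h
    have h1 : ρ + q * a ≡ 0 [MOD m] := by
      have : q * a ≡ ρ * (m - 1) [MOD m] := ha
      have h2 : ρ + q * a ≡ ρ + ρ * (m - 1) [MOD m] := Nat.ModEq.add_left _ this
      have h3 : ρ + ρ * (m - 1) = ρ * m := by
        obtain ⟨k, rfl⟩ := Nat.exists_eq_add_of_lt hm
        simp; ring
      rw [h3] at h2
      exact h2.trans ((Nat.modEq_zero_iff_dvd).2 (Dvd.intro_left _ rfl))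
    constructor
    · intro hd
      have h2 : ρ + q * h ≡ ρ + q * a [MOD m] := ((Nat.modEq_zero_iff_dvd).2 hd).trans h1.symm
      exact Nat.ModEq.cancel_left_of_coprime hq.symm (Nat.ModEq.add_left_cancel' _ h2)
    · intro hd
      exact (Nat.modEq_zero_iff_dvd).1 (((hd.mul_left q).add_left ρ).trans h1)
  simp only [hiff]
  rw [Finset.sum_boole, ← Nat.count_eq_card_filter_range, Nat.count_modEq_card _ hm]
  have hm' : (0 : ℝ) < m := by exact_mod_cast hm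
  have h1 : ((L / m : ℕ) : ℝ) ≤ L / m := Nat.cast_div_le
  have h2 : (L : ℝ) / m < (L / m : ℕ) + 1 := by
    rw [div_lt_iff₀ hm']
    have := Nat.lt_mul_div_succ L hm
    have h3 : (L : ℝ) < m * ((L / m : ℕ) + 1) := by exact_mod_cast this
    linarith
  rw [mul_one_div, abs_le]
  push_cast
  split_ifs <;> constructor <;> linarith

theorem good_empty : Good q ρ L ∅ (fun _ => 1) 1 1 := by
  intro R hR _
  have h1 : ∀ h, ∏ p ∈ R, ind q ρ h p = if (∏ p ∈ R, p) ∣ ρ + q * h then (1 : ℝ) else 0 := by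
    intro h
    unfold ind
    rw [Finset.prod_ite_zero]
    simp only [Finset.prod_const_one]
    congr 1
    apply propext
    constructor
    · intro hh
      exact Finset.prod_primes_dvd _ (fun p hp => (hR p hp).1.prime) hh
    · intro hh p hp
      exact (Finset.dvd_prod_of_mem _ hp).trans hh
  have h2 : ∏ p ∈ R, (1 / (p : ℝ)) = 1 / ((∏ p ∈ R, p : ℕ) : ℝ) := by
    push_cast
    simp [Finset.prod_inv_distrib]
  simp only [h1, h2, mul_one]
  apply count_dvd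
  · exact Finset.prod_pos fun p hp => (hR p hp).1.pos
  · exact Nat.Coprime.prod_right fun p hp =>
      ((Nat.Prime.coprime_iff_not_dvd (hR p hp).1).2 (hR p hp).2).symm

variable {q ρ L}

theorem Good.nonneg {P : Finset ℕ} {φ : ℕ → ℝ} {μ B : ℝ} (h : Good q ρ L P φ μ B) : 0 ≤ B :=
  (abs_nonneg _).trans (h ∅ (fun _ h => by simp at h) (by simp))

theorem Good.mono {P : Finset ℕ} {φ : ℕ → ℝ} {μ B B' : ℝ} (h : Good q ρ L P φ μ B)
    (hB : B ≤ B') : Good q ρ L P φ μ B' := fun R hR hd => (h R hR hd).trans hB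

theorem Good.add {P : Finset ℕ} {φ φ' : ℕ → ℝ} {μ μ' B B' : ℝ} (h : Good q ρ L P φ μ B)
    (h' : Good q ρ L P φ' μ' B') : Good q ρ L P (fun x => φ x + φ' x) (μ + μ') (B + B') := by
  intro R hR hd
  have a := h R hR hd
  have b := h' R hR hd
  simp only [mul_add, Finset.sum_add_distrib, add_mul]
  rw [abs_le] at a b ⊢
  constructor <;> linarith [a.1, a.2, b.1, b.2]

theorem Good.sign {P : Finset ℕ} {φ : ℕ → ℝ} {μ B : ℝ} (h : Good q ρ L P φ μ B) (i : ℕ) :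
    Good q ρ L P (fun x => (-1) ^ i * φ x) ((-1) ^ i * μ) B := by
  intro R hR hd
  have a := h R hR hd
  have : ∑ h ∈ range L, (∏ p ∈ R, ind q ρ h p) * ((-1) ^ i * φ h)
      - L * ((-1) ^ i * μ) * ∏ p ∈ R, (1 / (p : ℝ))
      = (-1) ^ i * (∑ h ∈ range L, (∏ p ∈ R, ind q ρ h p) * φ h
        - L * μ * ∏ p ∈ R, (1 / (p : ℝ))) := by
    rw [mul_sub, Finset.mul_sum]
    congr 1
    · refine Finset.sum_congr rfl fun _ _ => by ring
    · ring
  rw [this, abs_mul, abs_pow, abs_neg, abs_one, one_pow, one_mul]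
  exact a

theorem Good.congr {P : Finset ℕ} {φ φ' : ℕ → ℝ} {μ μ' B : ℝ} (h : Good q ρ L P φ μ B)
    (h1 : ∀ x, φ x = φ' x) (h2 : μ = μ') : Good q ρ L P φ' μ' B := by
  have : φ = φ' := funext h1
  rw [← this, ← h2]; exact h

theorem Good.esym_mul {P Q : Finset ℕ} {φ : ℕ → ℝ} {μ B : ℝ} (h : Good q ρ L P φ μ B)
    (hQ : Adm q Q) (hd : Disjoint Q P) (i : ℕ) :
    Good q ρ L (P ∪ Q) (fun x => esym (ind q ρ x) Q i * φ x)
      (esym (fun p => 1 / (p : ℝ)) Q i * μ) (Q.card.choose i * B) := by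
  intro R hR hdR
  rw [Finset.disjoint_union_right] at hdR
  have key : ∀ S ∈ powersetCard i Q,
      |∑ h ∈ range L, (∏ p ∈ R, ind q ρ h p) * ((∏ p ∈ S, ind q ρ h p) * φ h)
        - L * ((∏ p ∈ S, (1 / (p : ℝ))) * μ) * ∏ p ∈ R, (1 / (p : ℝ))| ≤ B := by
    intro S hS
    have hSQ : S ⊆ Q := (Finset.mem_powersetCard.1 hS).1
    have hRS : Disjoint R S := hdR.2.mono_right hSQ
    have := h (R ∪ S) (fun p hp => by
      rcases Finset.mem_union.1 hp with hp | hp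
      · exact hR p hp
      · exact hQ p (hSQ hp)) (Finset.disjoint_union_left.2 ⟨hdR.1, hd.mono_left hSQ⟩)
    simp only [Finset.prod_union hRS] at this
    have e1 : ∀ x, (∏ p ∈ R, ind q ρ x p) * ((∏ p ∈ S, ind q ρ x p) * φ x)
        = ((∏ p ∈ R, ind q ρ x p) * ∏ p ∈ S, ind q ρ x p) * φ x := fun x => by ring
    have e2 : L * ((∏ p ∈ S, (1 / (p : ℝ))) * μ) * ∏ p ∈ R, (1 / (p : ℝ))
        = L * μ * ((∏ p ∈ R, (1 / (p : ℝ))) * ∏ p ∈ S, (1 / (p : ℝ))) := by ring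
    simp only [e1, e2]
    exact this
  have e : ∑ h ∈ range L, (∏ p ∈ R, ind q ρ h p) * (esym (ind q ρ h) Q i * φ h)
      - L * (esym (fun p => 1 / (p : ℝ)) Q i * μ) * ∏ p ∈ R, (1 / (p : ℝ))
      = ∑ S ∈ powersetCard i Q,
        (∑ h ∈ range L, (∏ p ∈ R, ind q ρ h p) * ((∏ p ∈ S, ind q ρ h p) * φ h)
        - L * ((∏ p ∈ S, (1 / (p : ℝ))) * μ) * ∏ p ∈ R, (1 / (p : ℝ))) := by
    rw [Finset.sum_sub_distrib, Finset.sum_comm]
    unfold esym
    simp only [Finset.sum_mul, Finset.mul_sum]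
  rw [e]
  refine (Finset.abs_sum_le_sum_abs _ _).trans ((Finset.sum_le_sum key).trans ?_)
  simp [Finset.card_powersetCard]

theorem Good.trunc_mul {P Q : Finset ℕ} {φ : ℕ → ℝ} {μ B : ℝ} (h : Good q ρ L P φ μ B)
    (hQ : Adm q Q) (hd : Disjoint Q P) (m : ℕ) :
    Good q ρ L (P ∪ Q) (fun x => trunc (ind q ρ x) Q m * φ x)
      (trunc (fun p => 1 / (p : ℝ)) Q m * μ)
      ((∑ i ∈ range (m + 1), Q.card.choose i : ℕ) * B) := by
  induction m with
  | zero =>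
    have := h.esym_mul hQ hd 0
    simpa [trunc_zero, esym_zero] using this
  | succ m ih =>
    have := ih.add ((h.esym_mul hQ hd (m + 1)).sign (m + 1))
    rw [Finset.sum_range_succ _ (m + 1)]
    refine (this.congr (fun x => ?_) ?_).mono (le_of_eq ?_)
    · rw [trunc_succ]; ring
    · rw [trunc_succ]; ring
    · push_cast; ring

variable (q ρ L)

/-- Upper and lower sieve weights for the set of primes `P`. -/
def Sv (P : Finset ℕ) (s : ℕ) (c B : ℝ) : Prop :=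
  ∃ (U W : ℕ → ℝ) (μU μW : ℝ),
    (∀ h, W h ≤ ∏ p ∈ P, (1 - ind q ρ h p) ∧ ∏ p ∈ P, (1 - ind q ρ h p) ≤ U h) ∧
    Good q ρ L P U μU B ∧ Good q ρ L P W μW B ∧ c ≤ μU ∧ (1 - (1 / 2) ^ s) * μU ≤ μW

theorem sv_empty (s : ℕ) : Sv q ρ L ∅ s 1 1 := by
  refine ⟨fun _ => 1, fun _ => 1, 1, 1, fun h => by simp, good_empty q ρ L, good_empty q ρ L,
    le_rfl, ?_⟩
  have : (0 : ℝ) ≤ (1 / 2) ^ s := by positivity
  linarith

variable {q ρ L}

theorem Sv.mono {P : Finset ℕ} {s : ℕ} {c c' B B' : ℝ} (h : Sv q ρ L P s c B) (hc : c' ≤ c)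
    (hB : B ≤ B') : Sv q ρ L P s c' B' := by
  obtain ⟨U, W, μU, μW, h1, h2, h3, h4, h5⟩ := h
  exact ⟨U, W, μU, μW, h1, h2.mono hB, h3.mono hB, hc.trans h4, h5⟩

/-- One block of the Brun-Hooley sieve. -/
theorem Sv.step {P Q : Finset ℕ} {s : ℕ} {c B : ℝ} (h : Sv q ρ L P (s + 1) c B) (hc : 0 ≤ c)
    (hQ : Adm q Q) (hd : Disjoint Q P) (hsum : ∑ p ∈ Q, (1 / (p : ℝ)) ≤ 4) :
    Sv q ρ L (P ∪ Q) s (c / 6561) (((Q.card : ℝ) + 1) ^ (17 + 2 * s) * B) := by
  obtain ⟨U, W, μU, μW, h1, h2, h3, h4, h5⟩ := h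
  have hB := h2.nonneg
  set n := 16 + 2 * s with hn
  have hev : Even n := ⟨8 + s, by omega⟩
  have hw0 : ∀ p ∈ Q, (0 : ℝ) ≤ 1 / (p : ℝ) := fun p _ => by positivity
  have hw2 : ∀ p ∈ Q, (1 : ℝ) / (p : ℝ) ≤ 1 / 2 := fun p hp => by
    have : (2 : ℝ) ≤ p := by exact_mod_cast (hQ p hp).1.two_le
    exact one_div_le_one_div_of_le (by norm_num) this
  have hw1 : ∀ p ∈ Q, (1 : ℝ) / (p : ℝ) ≤ 1 := fun p hp => (hw2 p hp).trans (by norm_num)
  have hY : 1 / 6561 ≤ trunc (fun p => 1 / (p : ℝ)) Q n :=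
    (exp_le_prod _ Q hw0 hw2 hsum).trans (prod_le_trunc _ Q hw0 hw1 n hev)
  have hZ : esym (fun p => 1 / (p : ℝ)) Q (n + 1) ≤ (1 / 2) ^ (s + 1) / 6561 := by
    refine (esym_le _ Q hw0 (n + 1)).trans (le_trans ?_ (tail_le s))
    have : 0 ≤ ∑ p ∈ Q, (1 / (p : ℝ)) := Finset.sum_nonneg hw0
    gcongr
  have hch : ((∑ i ∈ range (n + 1 + 1), Q.card.choose i : ℕ) : ℝ)
      ≤ ((Q.card : ℝ) + 1) ^ (17 + 2 * s) := by
    have := sum_choose_le Q.card (n + 1)
    have e : n + 1 = 17 + 2 * s := by omega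
    rw [← e]
    exact_mod_cast this
  rw [Finset.sum_range_succ] at hch
  push_cast at hch
  have hμU : 0 ≤ μU := hc.trans h4
  refine ⟨fun x => trunc (ind q ρ x) Q n * U x,
    fun x => trunc (ind q ρ x) Q n * W x + (-1) ^ 1 * (esym (ind q ρ x) Q (n + 1) * U x),
    trunc (fun p => 1 / (p : ℝ)) Q n * μU,
    trunc (fun p => 1 / (p : ℝ)) Q n * μW
      + (-1) ^ 1 * (esym (fun p => 1 / (p : ℝ)) Q (n + 1) * μU), fun x => ?_, ?_, ?_, ?_, ?_⟩
  · rw [Finset.prod_union hd.symm]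
    obtain ⟨a1, a2⟩ := h1 x
    have b1 := prod_le_trunc (ind q ρ x) Q (fun p _ => ind_nonneg q ρ x p)
      (fun p _ => ind_le_one q ρ x p) n hev
    have b2 := trunc_sub_le (ind q ρ x) Q (fun p _ => ind_nonneg q ρ x p)
      (fun p _ => ind_le_one q ρ x p) n hev
    have b3 := esym_nonneg (ind q ρ x) Q (fun p _ => ind_nonneg q ρ x p) (n + 1)
    have c1 : 0 ≤ ∏ p ∈ P, (1 - ind q ρ x p) :=
      Finset.prod_nonneg fun p _ => by linarith [ind_le_one q ρ x p]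
    have c2 : 0 ≤ ∏ p ∈ Q, (1 - ind q ρ x p) :=
      Finset.prod_nonneg fun p _ => by linarith [ind_le_one q ρ x p]
    set a := ∏ p ∈ P, (1 - ind q ρ x p)
    set b := ∏ p ∈ Q, (1 - ind q ρ x p)
    set y := trunc (ind q ρ x) Q n
    set z := esym (ind q ρ x) Q (n + 1)
    have hy : 0 ≤ y := c2.trans b1
    constructor
    · have d1 : y * W x ≤ y * a := mul_le_mul_of_nonneg_left a1 hy
      have d2 : z * a ≤ z * U x := mul_le_mul_of_nonneg_left a2 b3
      have d3 : (y - z) * a ≤ b * a := mul_le_mul_of_nonneg_right b2 c1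
      nlinarith
    · rw [mul_comm]
      exact mul_le_mul b1 a2 c1 hy
  · refine (h2.trunc_mul hQ hd n).mono ?_
    push_cast
    have : (0 : ℝ) ≤ (Q.card.choose (n + 1) : ℝ) := by positivity
    gcongr
    linarith
  · refine ((h3.trunc_mul hQ hd n).add ((h2.esym_mul hQ hd (n + 1)).sign 1)).mono ?_
    push_cast
    rw [← add_mul]
    gcongr
  · calc c / 6561 = 1 / 6561 * c := by ring
      _ ≤ _ := mul_le_mul hY h4 hc (by linarith)
  · set y := trunc (fun p => 1 / (p : ℝ)) Q n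
    set z := esym (fun p => 1 / (p : ℝ)) Q (n + 1)
    have ht : (0 : ℝ) ≤ (1 / 2) ^ (s + 1) := by positivity
    have e : ((1 : ℝ) / 2) ^ s = 2 * (1 / 2) ^ (s + 1) := by ring
    have d1 : z ≤ (1 / 2) ^ (s + 1) * y := by
      calc z ≤ (1 / 2) ^ (s + 1) / 6561 := hZ
        _ = (1 / 2) ^ (s + 1) * (1 / 6561) := by ring
        _ ≤ _ := mul_le_mul_of_nonneg_left hY ht
    have d2 : z * μU ≤ (1 / 2) ^ (s + 1) * y * μU := mul_le_mul_of_nonneg_right d1 hμU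
    have d3 : y * ((1 - (1 / 2) ^ (s + 1)) * μU) ≤ y * μW :=
      mul_le_mul_of_nonneg_left h5 (by linarith)
    rw [e]
    nlinarith

theorem Sv.exists {P : Finset ℕ} {c B : ℝ} (h : Sv q ρ L P 1 c B) (hL : B < L * (c / 2)) :
    ∃ h < L, ∀ p ∈ P, ¬ p ∣ ρ + q * h := by
  obtain ⟨U, W, μU, μW, h1, h2, h3, h4, h5⟩ := h
  by_contra hcon
  push Not at hcon
  have a := h3 ∅ (fun _ h => by simp at h) (by simp)
  simp only [Finset.prod_empty, one_mul, mul_one] at a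
  have b : ∑ h ∈ range L, W h ≤ 0 := by
    refine Finset.sum_nonpos fun x hx => (h1 x).1.trans (le_of_eq ?_)
    obtain ⟨p, hp, hpd⟩ := hcon x (Finset.mem_range.1 hx)
    exact Finset.prod_eq_zero hp (by simp [ind, hpd])
  have c1 : (L : ℝ) * (c / 2) ≤ L * μW := by
    refine mul_le_mul_of_nonneg_left ?_ (Nat.cast_nonneg L)
    norm_num at h5
    linarith
  rw [abs_le] at a
  linarith [a.1]

end

end Crest.Agent.R19
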