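import Mathlib
import Crest.Agent.R19.Sieve

set_option autoImplicit false

namespace Crest.Agent.R19

open Finset

/-- Reciprocals of the primes in a dyadic block. -/
theorem sum_dyadic_le (P : Finset ℕ) (hP : ∀ p ∈ P, p.Prime) (i : ℕ) (hi : 0 < i) :
    ∑ p ∈ P.filter (fun p => 2 ^ i < p ∧ p ≤ 2 ^ (i + 1)), (1 / (p : ℝ)) ≤ 4 / i := by
  set Q := P.filter (fun p => 2 ^ i < p ∧ p ≤ 2 ^ (i + 1)) with hQ
  have h1 : (2 ^ i) ^ Q.card ≤ ∏ p ∈ Q, p :=
    Finset.pow_card_le_prod _ _ _ fun p hp => (Finset.mem_filter.1 hp).2.1.le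
  have h2 : ∏ p ∈ Q, p ≤ primorial (2 ^ (i + 1)) := by
    unfold primorial
    refine Finset.prod_le_prod_of_subset_of_one_le' ?_ ?_
    · intro p hp
      have := Finset.mem_filter.1 hp
      exact Finset.mem_filter.2 ⟨Finset.mem_range.2 (by omega), hP p this.1⟩
    · intro p hp _
      exact (Finset.mem_filter.1 hp).2.one_lt.le
  have h3 := primorial_le_four_pow (2 ^ (i + 1))
  have h4 : 2 ^ (i * Q.card) ≤ 2 ^ (4 * 2 ^ i) := by
    calc 2 ^ (i * Q.card) = (2 ^ i) ^ Q.card := by rw [pow_mul]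
      _ ≤ 4 ^ (2 ^ (i + 1)) := h1.trans (h2.trans h3)
      _ = 2 ^ (4 * 2 ^ i) := by
        rw [show (4 : ℕ) = 2 ^ 2 by norm_num, ← pow_mul]; congr 1; ring
  have h5 : i * Q.card ≤ 4 * 2 ^ i := (Nat.pow_le_pow_iff_right (by norm_num)).1 h4
  have h6 : (i : ℝ) * Q.card ≤ 4 * 2 ^ i := by exact_mod_cast h5
  have hi' : (0 : ℝ) < i := by exact_mod_cast hi
  calc ∑ p ∈ Q, (1 / (p : ℝ)) ≤ ∑ p ∈ Q, (1 / (2 : ℝ) ^ i) := by
        refine Finset.sum_le_sum fun p hp => ?_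
        have : ((2 ^ i : ℕ) : ℝ) ≤ p := by exact_mod_cast (Finset.mem_filter.1 hp).2.1.le
        push_cast at this
        exact one_div_le_one_div_of_le (by positivity) this
    _ = Q.card / (2 : ℝ) ^ i := by simp [div_eq_mul_inv]
    _ ≤ 4 / i := by
        rw [div_le_div_iff₀ (by positivity) hi']; linarith

theorem sum_block_le_aux (P : Finset ℕ) (hP : ∀ p ∈ P, p.Prime) (I : ℕ) (hI : 0 < I) (n : ℕ) :
    ∑ p ∈ P.filter (fun p => 2 ^ I < p ∧ p ≤ 2 ^ (I + n)), (1 / (p : ℝ)) ≤ n * (4 / I) := by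
  induction n with
  | zero =>
    rw [Finset.filter_false_of_mem (fun p _ => by simp)]
    simp
  | succ n ih =>
    have hsub : P.filter (fun p => 2 ^ I < p ∧ p ≤ 2 ^ (I + (n + 1)))
        ⊆ P.filter (fun p => 2 ^ I < p ∧ p ≤ 2 ^ (I + n))
          ∪ P.filter (fun p => 2 ^ (I + n) < p ∧ p ≤ 2 ^ (I + n + 1)) := by
      intro p hp
      simp only [Finset.mem_filter, Finset.mem_union] at hp ⊢
      by_cases h : p ≤ 2 ^ (I + n)
      · exact Or.inl ⟨hp.1, hp.2.1, h⟩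
      · exact Or.inr ⟨hp.1, by omega, hp.2.2⟩
    have h1 := sum_dyadic_le P hP (I + n) (by omega)
    have hI' : (0 : ℝ) < I := by exact_mod_cast hI
    have h2 : (4 : ℝ) / ((I + n : ℕ) : ℝ) ≤ 4 / I := by
      apply div_le_div_of_nonneg_left (by norm_num) hI'
      push_cast; linarith [Nat.cast_nonneg (α := ℝ) n]
    calc _ ≤ ∑ p ∈ P.filter (fun p => 2 ^ I < p ∧ p ≤ 2 ^ (I + n))
          ∪ P.filter (fun p => 2 ^ (I + n) < p ∧ p ≤ 2 ^ (I + n + 1)), (1 / (p : ℝ)) :=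
          Finset.sum_le_sum_of_subset_of_nonneg hsub fun _ _ _ => by positivity
      _ = _ := Finset.sum_union (by
          rw [Finset.disjoint_left]
          intro p hp hp'
          have a := (Finset.mem_filter.1 hp).2.2
          have b := (Finset.mem_filter.1 hp').2.1
          omega)
      _ ≤ n * (4 / I) + 4 / I := add_le_add ih (h1.trans h2)
      _ = _ := by push_cast; ring

theorem sum_block_le (P : Finset ℕ) (hP : ∀ p ∈ P, p.Prime) (I : ℕ) (hI : 0 < I) :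
    ∑ p ∈ P.filter (fun p => 2 ^ I < p ∧ p ≤ 2 ^ (I + I)), (1 / (p : ℝ)) ≤ 4 := by
  have := sum_block_le_aux P hP I hI I
  have hI' : (I : ℝ) ≠ 0 := by exact_mod_cast hI.ne'
  rwa [mul_div_cancel₀ _ hI'] at this

theorem card_succ_le (Q : Finset ℕ) (t : ℕ) (ht : 1 ≤ t) (hQ : ∀ p ∈ Q, p.Prime ∧ p ≤ t) :
    (Q.card : ℝ) + 1 ≤ t := by
  have : Q ⊆ Finset.Icc 2 t := fun p hp => Finset.mem_Icc.2 ⟨(hQ p hp).1.two_le, (hQ p hp).2⟩
  have h := Finset.card_le_card this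
  rw [Nat.card_Icc] at h
  have : Q.card + 1 ≤ t := by omega
  exact_mod_cast this

theorem sv_small {q ρ L : ℕ} (P : Finset ℕ) (hP : Adm q P) (j s : ℕ) :
    Sv q ρ L (P.filter (fun p => p ≤ 2 ^ 2 ^ j)) s (1 / 6561 ^ (j + 1))
      (((2 : ℝ) ^ 2 ^ j) ^ (38 + 4 * s)) := by
  induction j generalizing s with
  | zero =>
    set Q := P.filter (fun p => p ≤ 2 ^ 2 ^ 0) with hQ
    have hQa : Adm q Q := fun p hp => hP p (Finset.mem_filter.1 hp).1
    have hc : (Q.card : ℝ) + 1 ≤ ((2 ^ 2 ^ 0 : ℕ) : ℝ) :=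
      card_succ_le Q _ (by norm_num) fun p hp => ⟨(hQa p hp).1, (Finset.mem_filter.1 hp).2⟩
    norm_num at hc
    have hsum : ∑ p ∈ Q, (1 / (p : ℝ)) ≤ 4 := by
      calc ∑ p ∈ Q, (1 / (p : ℝ)) ≤ ∑ p ∈ Q, (1 : ℝ) := Finset.sum_le_sum fun p hp => by
            have : (1 : ℝ) ≤ p := by exact_mod_cast (hQa p hp).1.one_lt.le
            rw [div_le_one (by linarith)]; exact this
        _ = Q.card := by simp
        _ ≤ 4 := by linarith
    have := (sv_empty q ρ L (s + 1)).step (by norm_num) hQa (by simp) hsum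
    rw [Finset.empty_union] at this
    refine this.mono (by norm_num) ?_
    rw [mul_one]
    calc ((Q.card : ℝ) + 1) ^ (17 + 2 * s) ≤ (2 : ℝ) ^ (17 + 2 * s) := by gcongr
      _ ≤ (2 : ℝ) ^ (38 + 4 * s) := pow_le_pow_right₀ (by norm_num) (by omega)
      _ = _ := by norm_num
  | succ j ih =>
    set Q := P.filter (fun p => 2 ^ 2 ^ j < p ∧ p ≤ 2 ^ (2 ^ j + 2 ^ j)) with hQ
    have e : 2 ^ j + 2 ^ j = 2 ^ (j + 1) := by ring
    have hQa : Adm q Q := fun p hp => hP p (Finset.mem_filter.1 hp).1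
    have hc : (Q.card : ℝ) + 1 ≤ ((2 ^ 2 ^ (j + 1) : ℕ) : ℝ) :=
      card_succ_le Q _ Nat.one_le_two_pow fun p hp =>
        ⟨(hQa p hp).1, e ▸ (Finset.mem_filter.1 hp).2.2⟩
    push_cast at hc
    have hsum : ∑ p ∈ Q, (1 / (p : ℝ)) ≤ 4 :=
      sum_block_le P (fun p hp => (hP p hp).1) (2 ^ j) (by positivity)
    have := (ih (s + 1)).step (by positivity) hQa (by
      rw [Finset.disjoint_left]
      intro p hp hp'
      have a := (Finset.mem_filter.1 hp).2.1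
      have b := (Finset.mem_filter.1 hp').2
      omega) hsum
    have hU : P.filter (fun p => p ≤ 2 ^ 2 ^ j) ∪ Q = P.filter (fun p => p ≤ 2 ^ 2 ^ (j + 1)) := by
      ext p
      simp only [hQ, Finset.mem_union, Finset.mem_filter, e]
      have : 2 ^ 2 ^ j ≤ 2 ^ 2 ^ (j + 1) :=
        Nat.pow_le_pow_right (by norm_num) (Nat.pow_le_pow_right (by norm_num) (by omega))
      constructor
      · rintro (h | h)
        · exact ⟨h.1, h.2.trans this⟩
        · exact ⟨h.1, h.2.2⟩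
      · intro h
        by_cases h' : p ≤ 2 ^ 2 ^ j
        · exact Or.inl ⟨h.1, h'⟩
        · exact Or.inr ⟨h.1, by omega, h.2⟩
    rw [hU] at this
    refine this.mono (le_of_eq (by rw [pow_succ _ (j + 1)]; field_simp)) ?_
    have e2 : ((2 : ℝ) ^ 2 ^ j) ^ (38 + 4 * (s + 1)) = ((2 : ℝ) ^ 2 ^ (j + 1)) ^ (21 + 2 * s) := by
      rw [← pow_mul, ← pow_mul]; congr 1; ring
    rw [e2]
    calc ((Q.card : ℝ) + 1) ^ (17 + 2 * s) * ((2 : ℝ) ^ 2 ^ (j + 1)) ^ (21 + 2 * s)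
        ≤ ((2 : ℝ) ^ 2 ^ (j + 1)) ^ (17 + 2 * s) * ((2 : ℝ) ^ 2 ^ (j + 1)) ^ (21 + 2 * s) := by
          gcongr
      _ = _ := by rw [← pow_add]; congr 1; ring

/-- A polynomial bound for Jacobsthal's function. -/
theorem jacobsthal (q ρ K : ℕ) (hK : 2 ≤ K) (P : Finset ℕ) (hP : Adm q P) (hcard : P.card ≤ K) :
    ∃ h < K ^ 171, ∀ p ∈ P, ¬ p ∣ ρ + q * h := by
  have hex : ∃ j, K ≤ 2 ^ 2 ^ j := ⟨K, (Nat.lt_two_pow_self.trans Nat.lt_two_pow_self).le⟩
  classical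
  set J := Nat.find hex with hJ
  have h1 : K ≤ 2 ^ 2 ^ J := Nat.find_spec hex
  have h2 : 2 ^ 2 ^ J ≤ K ^ 2 := by
    rcases Nat.eq_zero_or_pos J with h | h
    · rw [h]; norm_num; nlinarith
    · obtain ⟨j, hj⟩ : ∃ j, J = j + 1 := ⟨J - 1, by omega⟩
      have := Nat.find_min hex (m := j) (by omega)
      push Not at this
      rw [hj, pow_succ, pow_mul]
      exact Nat.pow_le_pow_left this.le 2
  set Q := P.filter (fun p => ¬ p ≤ 2 ^ 2 ^ J) with hQ
  have hQa : Adm q Q := fun p hp => hP p (Finset.mem_filter.1 hp).1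
  have hK' : (2 : ℝ) ≤ K := by exact_mod_cast hK
  have hQc : (Q.card : ℝ) ≤ K := by exact_mod_cast (Finset.card_filter_le _ _).trans hcard
  have hsum : ∑ p ∈ Q, (1 / (p : ℝ)) ≤ 4 := by
    calc ∑ p ∈ Q, (1 / (p : ℝ)) ≤ ∑ p ∈ Q, (1 / (K : ℝ)) := Finset.sum_le_sum fun p hp => by
          have a := (Finset.mem_filter.1 hp).2
          have : (K : ℝ) ≤ p := by exact_mod_cast (by omega : K ≤ p)
          exact one_div_le_one_div_of_le (by linarith) this
      _ = Q.card / K := by simp [div_eq_mul_inv]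
      _ ≤ 4 := by rw [div_le_iff₀ (by linarith)]; linarith
  have := (sv_small (ρ := ρ) (L := K ^ 171) P hP J (1 + 1)).step (by positivity) hQa
    (Finset.disjoint_filter_filter_not P P _).symm hsum
  rw [Finset.filter_union_filter_not_eq] at this
  refine this.exists ?_
  have t1 : (2 : ℝ) ^ 2 ^ J ≤ (K : ℝ) ^ 2 := by exact_mod_cast h2
  have t2 : (6561 : ℝ) ^ (J + 1) ≤ (K : ℝ) ^ 26 := by
    have : J + 1 ≤ 2 ^ J := Nat.lt_two_pow_self
    calc (6561 : ℝ) ^ (J + 1) ≤ ((2 : ℝ) ^ 13) ^ (J + 1) := by gcongr; norm_num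
      _ ≤ ((2 : ℝ) ^ 13) ^ (2 ^ J) := pow_le_pow_right₀ (by norm_num) this
      _ = ((2 : ℝ) ^ 2 ^ J) ^ 13 := by rw [← pow_mul, ← pow_mul, mul_comm]
      _ ≤ ((K : ℝ) ^ 2) ^ 13 := by gcongr
      _ = _ := by ring
  have t3 : (6561 : ℝ) * 2 < (K : ℝ) ^ 15 := by
    calc (6561 : ℝ) * 2 < 2 ^ 15 := by norm_num
      _ ≤ _ := by gcongr
  have t4 : (Q.card : ℝ) + 1 ≤ (K : ℝ) ^ 2 := by nlinarith
  have hKpos : (0 : ℝ) < K := by linarith
  calc ((Q.card : ℝ) + 1) ^ (17 + 2 * 1) * ((2 : ℝ) ^ 2 ^ J) ^ (38 + 4 * (1 + 1))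
      ≤ ((K : ℝ) ^ 2) ^ (17 + 2 * 1) * ((K : ℝ) ^ 2) ^ (38 + 4 * (1 + 1)) := by gcongr
    _ = (K : ℝ) ^ 171 * (1 / (K : ℝ) ^ 26 * (1 / (K : ℝ) ^ 15)) := by field_simp; ring
    _ < (K : ℝ) ^ 171 * (1 / (K : ℝ) ^ 26 * (1 / (6561 * 2))) := by gcongr
    _ ≤ (K : ℝ) ^ 171 * (1 / (6561 : ℝ) ^ (J + 1) * (1 / (6561 * 2))) := by gcongr
    _ = _ := by push_cast; field_simp

/-- Many pairwise coprime members of a progression. -/
theorem exists_coprime_family (q ρ K E H V : ℕ) (hq : 0 < q) (hρ : 0 < ρ) (hρq : ρ ≤ q)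
    (hcop : Nat.Coprime ρ q) (hK : 2 ≤ K) (hV : q * (K ^ 171 + 1) ≤ V) (hVE : V ≤ 2 ^ E)
    (hHE : H * E ≤ K) :
    ∃ D : Finset ℕ, D.card = H ∧ (∀ d ∈ D, 2 ≤ d ∧ d ≤ V ∧ ∃ h, d = ρ + q * h) ∧
      ∀ d ∈ D, ∀ e ∈ D, d ≠ e → Nat.Coprime d e := by
  classical
  induction H with
  | zero => exact ⟨∅, rfl, by simp, by simp⟩
  | succ H ih =>
    obtain ⟨D, hD1, hD2, hD3⟩ := ih (by nlinarith)
    let P := D.biUnion Nat.primeFactors
    have hPa : Adm q P := by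
      intro p hp
      obtain ⟨d, hd, hpd⟩ := Finset.mem_biUnion.1 hp
      have hp' := Nat.prime_of_mem_primeFactors hpd
      refine ⟨hp', fun hpq => ?_⟩
      obtain ⟨-, -, h, rfl⟩ := hD2 d hd
      have h1 : p ∣ ρ := (Nat.dvd_add_left (Dvd.dvd.mul_right hpq h)).1
        (Nat.dvd_of_mem_primeFactors hpd)
      have := Nat.dvd_gcd h1 hpq
      rw [hcop] at this
      exact hp'.one_lt.ne' (Nat.dvd_one.1 this)
    have hPc : P.card ≤ K := by
      refine Finset.card_biUnion_le.trans ?_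
      have : ∀ d ∈ D, d.primeFactors.card ≤ E := by
        intro d hd
        obtain ⟨h2, hdV, -⟩ := hD2 d hd
        have a : 2 ^ d.primeFactors.card ≤ ∏ p ∈ d.primeFactors, p :=
          Finset.pow_card_le_prod _ _ _ fun p hp => (Nat.prime_of_mem_primeFactors hp).two_le
        have b : ∏ p ∈ d.primeFactors, p ≤ d :=
          Nat.le_of_dvd (by omega) (Nat.prod_primeFactors_dvd d)
        exact (Nat.pow_le_pow_iff_right (by norm_num)).1 (a.trans (b.trans (hdV.trans hVE)))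
      calc ∑ d ∈ D, d.primeFactors.card ≤ ∑ d ∈ D, E := Finset.sum_le_sum this
        _ = H * E := by simp [hD1]
        _ ≤ K := by nlinarith
    obtain ⟨h, hh, hh'⟩ := jacobsthal q (ρ + q) K hK P hPa hPc
    set d := ρ + q + q * h with hd
    have hd2 : 2 ≤ d := by omega
    have hcopd : ∀ e ∈ D, Nat.Coprime d e := by
      intro e he
      apply Nat.Coprime.symm
      rw [Nat.coprime_iff_gcd_eq_one]
      by_contra hne
      obtain ⟨p, hp, hpd⟩ := Nat.exists_prime_and_dvd hne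
      have he2 := (hD2 e he).1
      exact hh' p (Finset.mem_biUnion.2 ⟨e, he, Nat.mem_primeFactors.2
        ⟨hp, hpd.trans (Nat.gcd_dvd_left _ _), by omega⟩⟩) (hpd.trans (Nat.gcd_dvd_right _ _))
    have hnot : d ∉ D := by
      intro hmem
      have := hcopd d hmem
      rw [Nat.coprime_self] at this
      omega
    refine ⟨insert d D, by rw [Finset.card_insert_of_notMem hnot, hD1], ?_, ?_⟩
    · intro e he
      rcases Finset.mem_insert.1 he with rfl | he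
      · refine ⟨hd2, le_trans ?_ hV, h + 1, by rw [hd]; ring⟩
        have : q * (h + 1) ≤ q * K ^ 171 := Nat.mul_le_mul_left _ hh
        rw [hd]; nlinarith
      · exact hD2 e he
    · intro a ha b hb hab
      rcases Finset.mem_insert.1 ha with rfl | ha' <;> rcases Finset.mem_insert.1 hb with rfl | hb'
      · exact absurd rfl hab
      · exact hcopd b hb'
      · exact (hcopd a ha').symm
      · exact hD3 a ha' b hb' hab

end Crest.Agent.R19
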