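import Mathlib

set_option autoImplicit false

namespace Crest.Agent.R19

open Finset

/-- `x` is a sum of `k` terms `1/n` (a denominator `0` stands for an absent term). -/
def Rep (x : ℚ) (k : ℕ) : Prop := ∃ f : Fin k → ℕ, ∑ i, (1 : ℚ) / (f i : ℚ) = x

theorem Rep.zero (k : ℕ) : Rep 0 k := ⟨fun _ => 0, by simp⟩

theorem Rep.add {x y : ℚ} {k l : ℕ} (hx : Rep x k) (hy : Rep y l) : Rep (x + y) (k + l) := by
  obtain ⟨f, hf⟩ := hx
  obtain ⟨g, hg⟩ := hy
  refine ⟨Fin.append f g, ?_⟩
  rw [Fin.sum_univ_add]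
  simp only [Fin.append_left, Fin.append_right]
  rw [hf, hg]

theorem Rep.mono {x : ℚ} {k l : ℕ} (hx : Rep x k) (h : k ≤ l) : Rep x l := by
  obtain ⟨m, rfl⟩ := Nat.exists_eq_add_of_le h
  simpa using hx.add (Rep.zero m)

theorem Rep.one (n : ℕ) : Rep (1 / (n : ℚ)) 1 := ⟨fun _ => n, by simp⟩

theorem Rep.nsmul {x : ℚ} {k : ℕ} (hx : Rep x k) (m : ℕ) : Rep (m * x) (m * k) := by
  induction m with
  | zero => simpa using Rep.zero 0
  | succ m ih =>
    have := ih.add hx
    rw [Nat.succ_mul]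
    convert this using 1
    push_cast; ring

/-- A representation with repetitions can be made distinct. -/
theorem Rep.distinct {x : ℚ} {k : ℕ} (hx : Rep x k) (h1 : x < 1) :
    ∃ S : Finset ℕ, (∀ n ∈ S, 2 ≤ n) ∧ S.card ≤ k ∧ ∑ n ∈ S, (1 : ℚ) / (n : ℚ) = x := by
  classical
  let T : Set (Lex (Fin k → ℕ)) := {f | ∑ i, (1 : ℚ) / (ofLex f i : ℚ) = x}
  have hT : T.Nonempty := by
    obtain ⟨f, hf⟩ := hx
    exact ⟨toLex f, hf⟩
  obtain ⟨F, hF, hmin⟩ := (wellFounded_lt (α := Lex (Fin k → ℕ))).has_min T hT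
  set f : Fin k → ℕ := ofLex F with hf
  have hsum : ∑ i, (1 : ℚ) / (f i : ℚ) = x := hF
  have hne1 : ∀ i, f i ≠ 1 := by
    intro i hi
    have : (1 : ℚ) / (f i : ℚ) ≤ ∑ i, (1 : ℚ) / (f i : ℚ) :=
      Finset.single_le_sum (f := fun i => (1 : ℚ) / (f i : ℚ)) (fun _ _ => by positivity)
        (Finset.mem_univ i)
    rw [hsum, hi] at this
    norm_num at this
    linarith
  have key : ∀ i j, i < j → f i ≠ 0 → f i ≠ f j := by
    intro i j hij h0 heq
    have hij' : i ≠ j := ne_of_lt hij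
    -- find `u < f i` and `v` with `1/u + 1/v = 2 / f i`
    have : ∃ u v : ℕ, u < f i ∧ (1 : ℚ) / u + 1 / v = 1 / (f i : ℚ) + 1 / (f i : ℚ) := by
      rcases Nat.even_or_odd' (f i) with ⟨m, hm | hm⟩
      · refine ⟨0, m, Nat.pos_of_ne_zero h0, ?_⟩
        have hm0 : (m : ℚ) ≠ 0 := by
          have : m ≠ 0 := by omega
          exact_mod_cast this
        rw [hm]; push_cast; field_simp; ring
      · have hm1 : m ≠ 0 := by
          intro h; apply hne1 i; omega
        refine ⟨m + 1, (2 * m + 1) * (m + 1), by omega, ?_⟩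
        rw [hm]; push_cast; field_simp; ring
    obtain ⟨u, v, hu, huv⟩ := this
    let g : Fin k → ℕ := Function.update (Function.update f j v) i u
    have hg : toLex g ∈ T := by
      change ∑ l, (1 : ℚ) / (g l : ℚ) = x
      rw [← hsum]
      rw [← Finset.add_sum_erase _ _ (Finset.mem_univ i),
        ← Finset.add_sum_erase _ _ (Finset.mem_univ i)]
      have hj : j ∈ Finset.univ.erase i := by simp [hij'.symm]
      rw [← Finset.add_sum_erase _ _ hj, ← Finset.add_sum_erase _ _ hj]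
      have e1 : g i = u := by simp [g]
      have e2 : g j = v := by simp [g, Function.update_of_ne hij'.symm]
      have e3 : ∑ l ∈ (Finset.univ.erase i).erase j, (1 : ℚ) / (g l : ℚ)
          = ∑ l ∈ (Finset.univ.erase i).erase j, (1 : ℚ) / (f l : ℚ) := by
        refine Finset.sum_congr rfl fun l hl => ?_
        simp only [Finset.mem_erase] at hl
        simp [g, Function.update_of_ne hl.1, Function.update_of_ne hl.2.1]
      rw [e1, e2, e3, ← heq, ← add_assoc, huv, add_assoc]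
    apply hmin _ hg
    refine ⟨i, fun l hl => ?_, ?_⟩
    · have h1 : l ≠ i := ne_of_lt hl
      have h2 : l ≠ j := ne_of_lt (hl.trans hij)
      change g l = f l
      simp [g, Function.update_of_ne h1, Function.update_of_ne h2]
    · change g i < f i
      simpa [g] using hu
  refine ⟨(Finset.univ.filter fun i => f i ≠ 0).image f, ?_, ?_, ?_⟩
  · intro n hn
    simp only [Finset.mem_image, Finset.mem_filter] at hn
    obtain ⟨i, ⟨_, hi⟩, rfl⟩ := hn
    have := hne1 i
    omega
  · refine Finset.card_image_le.trans ((Finset.card_filter_le _ _).trans ?_)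
    simp
  · rw [Finset.sum_image]
    · rw [← hsum, Finset.sum_filter]
      refine Finset.sum_congr rfl fun i _ => ?_
      split_ifs with h
      · rfl
      · push Not at h; simp [h]
    · intro i hi j hj hij
      simp only [Finset.coe_filter, Set.mem_ofPred_eq] at hi hj
      by_contra hne
      rcases lt_or_gt_of_ne hne with h | h
      · exact key i j h hi.2 hij
      · exact key j i h hj.2 hij.symm

/-- `x` is a sum of `k` divisors of `Γ`, in the semantic form used below. -/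
def SD (Γ k x : ℕ) : Prop := ∀ N : ℕ, Γ ∣ N → N ≠ 0 → Rep ((x : ℚ) / N) k

theorem SD.zero (Γ k : ℕ) : SD Γ k 0 := fun N _ _ => by simpa using Rep.zero k

theorem SD.of_dvd {Γ u : ℕ} (h : u ∣ Γ) : SD Γ 1 u := by
  intro N hN hN0
  obtain ⟨c, rfl⟩ := h.trans hN
  have hu : (u : ℚ) ≠ 0 := by
    have : u ≠ 0 := by rintro rfl; simp at hN0
    exact_mod_cast this
  have : ((u : ℚ) / ((u * c : ℕ) : ℚ)) = 1 / (c : ℚ) := by
    push_cast; field_simp
  rw [this]; exact Rep.one c

theorem SD.add {Γ k l x y : ℕ} (hx : SD Γ k x) (hy : SD Γ l y) : SD Γ (k + l) (x + y) := by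
  intro N hN hN0
  have := (hx N hN hN0).add (hy N hN hN0)
  convert this using 1
  push_cast; ring

theorem SD.mono {Γ Γ' k x : ℕ} (hx : SD Γ k x) (h : Γ ∣ Γ') : SD Γ' k x :=
  fun N hN hN0 => hx N (h.trans hN) hN0

theorem SD.mul {Γ k x : ℕ} (hx : SD Γ k x) (w : ℕ) : SD (Γ * w) k (w * x) := by
  intro N hN hN0
  obtain ⟨c, rfl⟩ := hN
  have hw : w ≠ 0 := by rintro rfl; simp at hN0
  have hw' : (w : ℚ) ≠ 0 := by exact_mod_cast hw
  have h0 : Γ * c ≠ 0 := by
    intro h; apply hN0; rw [mul_right_comm, h, zero_mul]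
  have := hx (Γ * c) (Dvd.intro _ rfl) h0
  convert this using 1
  have h0' : ((Γ * c : ℕ) : ℚ) ≠ 0 := by exact_mod_cast h0
  push_cast at h0' ⊢
  have hΓ : (Γ : ℚ) ≠ 0 := left_ne_zero_of_mul h0'
  have hc : (c : ℚ) ≠ 0 := right_ne_zero_of_mul h0'
  field_simp

end Crest.Agent.R19
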