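import Mathlib
import Crest.Agent.R19.Rep

set_option autoImplicit false

namespace Crest.Agent.R19

open Finset

theorem primes_lower (t : ℕ) (ht : 3 ≤ t) : 2 ^ t ≤ 2 * t * (Nat.primesLE (2 ^ t)).card := by
  have h1 := Chebyshev.two_pow_le_mul_lcmUpto (2 ^ t)
  have h2 : Nat.lcmUpto (2 ^ t) ≤ (2 ^ t) ^ (Nat.primesLE (2 ^ t)).card := by
    rw [Nat.lcmUpto_eq_prod_pow_log]
    exact Finset.prod_le_pow_card _ _ _ fun p _ => Nat.pow_log_le_self p (by positivity)
  have h3 : 2 ^ t + 1 ≤ 2 ^ (t + 1) := by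
    have : 1 ≤ 2 ^ t := Nat.one_le_two_pow
    rw [pow_succ]; omega
  have h4 : 2 ^ (2 ^ t) ≤ 2 ^ (t + 1 + t * (Nat.primesLE (2 ^ t)).card) := by
    rw [pow_add, pow_mul]
    exact h1.trans (Nat.mul_le_mul h3 h2)
  have h5 := (Nat.pow_le_pow_iff_right (by norm_num)).1 h4
  have h6 : 2 * (t + 1) ≤ 2 ^ t := by
    obtain ⟨u, rfl⟩ := Nat.exists_eq_add_of_le ht
    clear h1 h2 h3 h4 h5 ht
    induction u with
    | zero => norm_num
    | succ u ih => rw [← add_assoc, pow_succ]; omega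
  nlinarith

theorem card_divisors_primorial (n : ℕ) :
    2 ^ (Nat.primesLE n).card ≤ (primorial n).divisors.card := by
  rw [Nat.card_divisors (primorial_ne_zero n), primeFactors_primorial]
  refine Finset.pow_card_le_prod _ _ _ fun p hp => ?_
  rw [← primeFactors_primorial] at hp
  have : 0 < (primorial n).factorization p :=
    (Nat.prime_of_mem_primeFactors hp).factorization_pos_of_dvd (primorial_ne_zero n)
      (Nat.dvd_of_mem_primeFactors hp)
  omega

theorem card_primeFactors_le (d E : ℕ) (hd : 0 < d) (hdE : d ≤ 2 ^ E) :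
    d.primeFactors.card ≤ E := by
  have a : 2 ^ d.primeFactors.card ≤ ∏ p ∈ d.primeFactors, p :=
    Finset.pow_card_le_prod _ _ _ fun p hp => (Nat.prime_of_mem_primeFactors hp).two_le
  have b : ∏ p ∈ d.primeFactors, p ≤ d := Nat.le_of_dvd hd (Nat.prod_primeFactors_dvd d)
  exact (Nat.pow_le_pow_iff_right (by norm_num)).1 (a.trans (b.trans hdE))

/-- Some prime separates half of the elements of `E`. -/
theorem exists_good_prime (E P : Finset ℕ) (w : ℕ) (hE : ∀ e ∈ E, e ≤ 2 ^ w)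
    (hP : ∀ p ∈ P, p.Prime) (hPne : P.Nonempty) (hc : 2 * E.card * w ≤ P.card) :
    ∃ r ∈ P, ∃ E' ⊆ E, E.card ≤ 2 * E'.card ∧ ∀ e ∈ E', ∀ e' ∈ E', e ≡ e' [MOD r] → e = e' := by
  classical
  let pairs : ℕ → Finset (ℕ × ℕ) := fun r => (E ×ˢ E).filter fun x => x.2 < x.1 ∧ r ∣ x.1 - x.2
  have hsum : ∑ r ∈ P, (pairs r).card ≤ E.card * E.card * w := by
    have : ∑ r ∈ P, (pairs r).card
        = ∑ x ∈ E ×ˢ E, (P.filter fun r => x.2 < x.1 ∧ r ∣ x.1 - x.2).card := by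
      simp only [pairs, Finset.card_filter]
      exact Finset.sum_comm
    rw [this, ← Finset.card_product]
    refine (Finset.sum_le_card_nsmul _ _ w fun x hx => ?_).trans (by simp)
    by_cases hlt : x.2 < x.1
    · have hsub : (P.filter fun r => x.2 < x.1 ∧ r ∣ x.1 - x.2) ⊆ (x.1 - x.2).primeFactors := by
        intro r hr
        have := Finset.mem_filter.1 hr
        exact Nat.mem_primeFactors.2 ⟨hP r this.1, this.2.2, by omega⟩
      refine (Finset.card_le_card hsub).trans (card_primeFactors_le _ _ (by omega) ?_)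
      have := hE _ (Finset.mem_product.1 hx).1
      omega
    · simp [hlt]
  have hex : ∃ r ∈ P, 2 * (pairs r).card ≤ E.card := by
    by_contra hcon
    push Not at hcon
    have h1 : ∑ r ∈ P, E.card < ∑ r ∈ P, 2 * (pairs r).card :=
      Finset.sum_lt_sum_of_nonempty hPne hcon
    rw [← Finset.mul_sum] at h1
    simp only [Finset.sum_const, smul_eq_mul] at h1
    have h2 : 2 * E.card * w * E.card ≤ P.card * E.card := Nat.mul_le_mul_right _ hc
    nlinarith
  obtain ⟨r, hr, hr'⟩ := hex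
  refine ⟨r, hr, E \ (pairs r).image Prod.fst, Finset.sdiff_subset, ?_, ?_⟩
  · have h1 := Finset.le_card_sdiff ((pairs r).image Prod.fst) E
    have h2 : ((pairs r).image Prod.fst).card ≤ (pairs r).card := Finset.card_image_le
    omega
  · have key : ∀ e ∈ E \ (pairs r).image Prod.fst, ∀ e' ∈ E \ (pairs r).image Prod.fst,
        e' ≡ e [MOD r] → ¬ e' < e := by
      intro e he e' he' hm hlt
      apply (Finset.mem_sdiff.1 he).2
      refine Finset.mem_image.2 ⟨(e, e'), Finset.mem_filter.2 ⟨Finset.mem_product.2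
        ⟨(Finset.mem_sdiff.1 he).1, (Finset.mem_sdiff.1 he').1⟩, hlt, ?_⟩, rfl⟩
      exact (Nat.modEq_iff_dvd' hlt.le).1 hm
    intro e he e' he' hm
    have a := key e he e' he' hm.symm
    have b := key e' he' e he hm
    omega

theorem combine (A B : Finset ℕ) (r : ℕ) (hr : 0 < r)
    (hA : ∀ e ∈ A, ∀ e' ∈ A, e ≡ e' [MOD r] → e = e') :
    ∃ C : Finset ℕ, C.card = A.card * B.card ∧ ∀ c ∈ C, ∃ a ∈ A, ∃ b ∈ B, c = a + r * b := by
  classical
  refine ⟨(A ×ˢ B).image fun x => x.1 + r * x.2, ?_, ?_⟩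
  · rw [Finset.card_image_of_injOn, Finset.card_product]
    rintro ⟨a, b⟩ hx ⟨a', b'⟩ hy h
    simp only [Finset.coe_product, Set.mem_prod, Finset.mem_coe] at hx hy h
    have h1 : a ≡ a' [MOD r] := by
      have : a + r * b ≡ a' + r * b' [MOD r] := by rw [h]
      simpa [Nat.ModEq] using this
    have h2 := hA a hx.1 a' hy.1 h1
    subst h2
    have : r * b = r * b' := by omega
    rw [Nat.eq_of_mul_eq_mul_left hr this]
  · intro c hc
    obtain ⟨x, hx, rfl⟩ := Finset.mem_image.1 hc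
    exact ⟨x.1, (Finset.mem_product.1 hx).1, x.2, (Finset.mem_product.1 hx).2, rfl⟩

theorem digits (E : Finset ℕ) (M r : ℕ) (hM : 0 < M) (hr : 2 ≤ r) (hE : ∀ e ∈ E, e ∣ M)
    (hA : ∀ e ∈ E, ∀ e' ∈ E, e ≡ e' [MOD r] → e = e') (k : ℕ) :
    ∃ X : Finset ℕ, X.card = E.card ^ k ∧
      ∀ x ∈ X, SD (M * r ^ k) k x ∧ x + M ≤ M * r ^ k ∧ (0 < k → 0 < x) := by
  induction k with
  | zero => exact ⟨{0}, by simp, by simp [SD.zero]⟩
  | succ k ih =>
    obtain ⟨X, hX1, hX2⟩ := ih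
    obtain ⟨C, hC1, hC2⟩ := combine E X r (by omega) hA
    refine ⟨C, by rw [hC1, hX1]; ring, fun c hc => ?_⟩
    obtain ⟨a, ha, b, hb, rfl⟩ := hC2 c hc
    obtain ⟨h1, h2, -⟩ := hX2 b hb
    have ha1 := hE a ha
    have ha2 : a ≤ M := Nat.le_of_dvd hM ha1
    have ha3 : 0 < a := Nat.pos_of_dvd_of_pos ha1 hM
    refine ⟨?_, ?_, fun _ => by omega⟩
    · have s1 : SD (M * r ^ (k + 1)) 1 a := SD.of_dvd (Dvd.dvd.mul_right ha1 _)
      have s2 := h1.mul r
      rw [mul_assoc, ← pow_succ] at s2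
      have := s1.add s2
      rwa [add_comm 1 k] at this
    · have : r * (b + M) ≤ r * (M * r ^ k) := Nat.mul_le_mul_left _ h2
      rw [pow_succ]
      nlinarith

/-- The basic dense set of short sums of divisors. -/
theorem dense0 (s t k : ℕ) (hs : 3 ≤ s) (ht : 2 * s * t ≤ 2 ^ s) (hst : 2 * s + 4 ≤ t) :
    ∃ (G : ℕ) (X : Finset ℕ), 0 < G ∧ G ≤ 2 ^ (2 ^ (s + 1) + t * k) ∧
      2 ^ ((t - (2 * s + 4)) * k) ≤ X.card ∧
      ∀ x ∈ X, SD G k x ∧ x ≤ G ∧ (0 < k → 0 < x) := by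
  set M := primorial (2 ^ s) with hM
  have hM0 : 0 < M := primorial_pos _
  have hMw : M ≤ 2 ^ (2 ^ (s + 1)) := by
    calc M ≤ 4 ^ (2 ^ s) := primorial_le_four_pow _
      _ = _ := by rw [show (4 : ℕ) = 2 ^ 2 by norm_num, ← pow_mul]; congr 1; ring
  have hm : t ≤ (Nat.primesLE (2 ^ s)).card := by
    have := ht.trans (primes_lower s hs)
    exact Nat.le_of_mul_le_mul_left this (by omega)
  obtain ⟨u, hu⟩ := Nat.exists_eq_add_of_le hst
  have hcard : 2 ^ (u + 1) ≤ M.divisors.card :=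
    (Nat.pow_le_pow_right (by norm_num) (by omega)).trans (card_divisors_primorial _)
  obtain ⟨E, hE1, hE2⟩ := Finset.exists_subset_card_eq hcard
  have hts : t ≤ 2 ^ s := by nlinarith
  have hP := primes_lower t (by omega)
  have hPc : 2 * E.card * 2 ^ (s + 1) ≤ (Nat.primesLE (2 ^ t)).card := by
    refine Nat.le_of_mul_le_mul_left (le_trans ?_ hP) (by omega : 0 < 2 * t)
    rw [hE2]
    calc 2 * t * (2 * 2 ^ (u + 1) * 2 ^ (s + 1)) ≤ 2 * 2 ^ s * (2 * 2 ^ (u + 1) * 2 ^ (s + 1)) := by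
          gcongr
      _ = 2 ^ t := by rw [hu]; ring
  have hPne : (Nat.primesLE (2 ^ t)).Nonempty := by
    rw [← Finset.card_pos]
    refine lt_of_lt_of_le ?_ hPc
    rw [hE2]; positivity
  obtain ⟨r, hr, E', hE', hE'c, hE'd⟩ := exists_good_prime E _ (2 ^ (s + 1))
    (fun e he => (Nat.divisor_le (hE1 he)).trans hMw) (fun p hp => Nat.prime_of_mem_primesLE hp)
    hPne hPc
  have hr2 := Nat.two_le_of_mem_primesLE hr
  have hrt := Nat.le_of_mem_primesLE hr
  obtain ⟨X, hX1, hX2⟩ := digits E' M r hM0 hr2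
    (fun e he => Nat.dvd_of_mem_divisors (hE1 (hE' he))) hE'd k
  refine ⟨M * r ^ k, X, by positivity, ?_, ?_, fun x hx => ?_⟩
  · rw [pow_add, pow_mul]
    exact Nat.mul_le_mul hMw (Nat.pow_le_pow_left hrt k)
  · rw [hX1, pow_mul]
    refine Nat.pow_le_pow_left ?_ k
    rw [hE2, pow_succ] at hE'c
    have : t - (2 * s + 4) = u := by omega
    rw [this]; omega
  · obtain ⟨a, b, c⟩ := hX2 x hx
    exact ⟨a, by omega, c⟩

/-- Doubling the set with a free multiplier. -/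
theorem double (X : Finset ℕ) (G k B n : ℕ) (hB : B < n)
    (hX : ∀ x ∈ X, SD G k x ∧ x ≤ B ∧ 0 < x) :
    ∃ X' : Finset ℕ, X'.card = X.card ^ 2 ∧
      ∀ x ∈ X', SD (G * n) (k + k) x ∧ x ≤ (n + 1) * B ∧ 0 < x := by
  obtain ⟨C, hC1, hC2⟩ := combine X X n (by omega) (fun e he e' he' h => by
    have a := (hX e he).2.1
    have b := (hX e' he').2.1
    exact Nat.ModEq.eq_of_lt_of_lt h (by omega) (by omega))
  refine ⟨C, by rw [hC1, sq], fun c hc => ?_⟩
  obtain ⟨a, ha, b, hb, rfl⟩ := hC2 c hc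
  obtain ⟨a1, a2, a3⟩ := hX a ha
  obtain ⟨b1, b2, b3⟩ := hX b hb
  refine ⟨(a1.mono (Dvd.intro _ rfl)).add (b1.mul n), by nlinarith, by omega⟩

end Crest.Agent.R19
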