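import Mathlib

set_option autoImplicit false

namespace Crest.Agent.R19

open Finset

/-- Partial sums of a bounded periodic function with zero mean are bounded by the period. -/
theorem abs_sum_periodic_le (g : ℕ → ℝ) (P : ℕ) (hP : 0 < P) (hper : ∀ n, g (P + n) = g n)
    (h0 : ∑ n ∈ range P, g n = 0) (hb : ∀ n, |g n| ≤ 1) (Y : ℕ) :
    |∑ n ∈ range Y, g n| ≤ P := by
  induction Y using Nat.strong_induction_on with
  | _ Y ih =>
    by_cases hY : Y < P
    · calc |∑ n ∈ range Y, g n| ≤ ∑ n ∈ range Y, |g n| := Finset.abs_sum_le_sum_abs _ _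
        _ ≤ ∑ n ∈ range Y, (1 : ℝ) := Finset.sum_le_sum fun n _ => hb n
        _ = Y := by simp
        _ ≤ P := by exact_mod_cast hY.le
    · push Not at hY
      obtain ⟨Y', rfl⟩ := Nat.exists_eq_add_of_le hY
      rw [Finset.sum_range_add, h0, zero_add]
      simp only [hper]
      exact ih Y' (by omega)

theorem sum_range_zmod (d : ℕ) [NeZero d] (φ : ZMod d → ℝ) :
    ∑ j ∈ range d, φ (j : ZMod d) = ∑ a : ZMod d, φ a := by
  refine Finset.sum_bij (fun j _ => (j : ZMod d)) (fun _ _ => Finset.mem_univ _) ?_ ?_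
    (fun _ _ => rfl)
  · intro a ha b hb hab
    have := (ZMod.natCast_eq_natCast_iff' a b d).1 hab
    rwa [Nat.mod_eq_of_lt (Finset.mem_range.1 ha), Nat.mod_eq_of_lt (Finset.mem_range.1 hb)]
      at this
  · intro a _
    exact ⟨a.val, Finset.mem_range.2 (ZMod.val_lt a), ZMod.natCast_zmod_val a⟩

theorem sum_range_mul_eq (d e : ℕ) (g : ℕ → ℝ) :
    ∑ n ∈ range (d * e), g n = ∑ j ∈ range e, ∑ a ∈ range d, g (d * j + a) := by
  induction e with
  | zero => simp
  | succ e ih => rw [Nat.mul_succ, Finset.sum_range_add, ih, Finset.sum_range_succ]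

/-- Independence of residues modulo coprime moduli. -/
theorem sum_mul_eq_zero (d e : ℕ) [NeZero d] [NeZero e] (hde : Nat.Coprime d e)
    (φ : ZMod d → ℝ) (ψ : ZMod e → ℝ) (hψ : ∑ b, ψ b = 0) :
    ∑ n ∈ range (d * e), φ (n : ZMod d) * ψ (n : ZMod e) = 0 := by
  rw [sum_range_mul_eq, Finset.sum_comm]
  refine Finset.sum_eq_zero fun a _ => ?_
  have h1 : ∀ j : ℕ, ((d * j + a : ℕ) : ZMod d) = (a : ZMod d) := by
    intro j; push_cast; simp
  simp only [h1]
  rw [← Finset.mul_sum]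
  have h2 : ∑ j ∈ range e, ψ ((d * j + a : ℕ) : ZMod e) = 0 := by
    have := sum_range_zmod e (fun j => ψ ((d : ZMod e) * j + a))
    push_cast
    rw [this, ← hψ]
    let u : (ZMod e)ˣ := ZMod.unitOfCoprime d hde
    have hu : (u : ZMod e) = d := ZMod.coe_unitOfCoprime d hde
    rw [← hu]
    exact Equiv.sum_comp ((u.mulLeft).trans (Equiv.addRight (a : ZMod e))) ψ
  rw [h2, mul_zero]

/-- The variance ("large sieve") lemma: a dense set has two elements whose sum is divisible by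
one of many pairwise coprime moduli. -/
theorem exists_dvd_add (X D : Finset ℕ) (Y V : ℕ) (hX : ∀ x ∈ X, x < Y)
    (hpos : ∀ d ∈ D, 0 < d) (hV : ∀ d ∈ D, d ≤ V)
    (hcop : ∀ d ∈ D, ∀ e ∈ D, d ≠ e → Nat.Coprime d e)
    (hbig : 4 * Y + 4 * D.card * V ^ 2 < X.card * D.card) :
    ∃ d ∈ D, ∃ x ∈ X, ∃ x' ∈ X, d ∣ x + x' := by
  classical
  by_contra hcon
  push Not at hcon
  -- residues
  let S : ∀ d : ℕ, Finset (ZMod d) := fun d => X.image (fun x : ℕ => (x : ZMod d))
  have hS : ∀ d ∈ D, 2 * (S d).card ≤ d := by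
    intro d hd
    haveI : NeZero d := ⟨(hpos d hd).ne'⟩
    have hdisj : Disjoint (S d) ((S d).image (fun a => -a)) := by
      rw [Finset.disjoint_left]
      intro a ha ha'
      obtain ⟨x, hx, rfl⟩ := Finset.mem_image.1 ha
      obtain ⟨b, hb, hb'⟩ := Finset.mem_image.1 ha'
      obtain ⟨x', hx', rfl⟩ := Finset.mem_image.1 hb
      apply hcon d hd x hx x' hx'
      rw [← ZMod.natCast_eq_zero_iff]
      push_cast
      rw [← hb']; ring
    have h1 := Finset.card_union_of_disjoint hdisj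
    rw [Finset.card_image_of_injective _ neg_injective] at h1
    have h2 : (S d ∪ (S d).image (fun a => -a)).card ≤ d := by
      have := Finset.card_le_univ (S d ∪ (S d).image (fun a => -a))
      rwa [ZMod.card] at this
    omega
  let φ : ∀ d : ℕ, ZMod d → ℝ := fun d a => (if a ∈ S d then 1 else 0) - ((S d).card : ℝ) / d
  have hσ : ∀ d ∈ D, 0 ≤ ((S d).card : ℝ) / d ∧ ((S d).card : ℝ) / d ≤ 1 / 2 := by
    intro d hd
    have h1 : (0 : ℝ) < d := by exact_mod_cast hpos d hd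
    have h2 : (2 : ℝ) * (S d).card ≤ d := by exact_mod_cast hS d hd
    refine ⟨by positivity, ?_⟩
    rw [div_le_iff₀ h1]; linarith
  have hφb : ∀ d ∈ D, ∀ a, |φ d a| ≤ 1 := by
    intro d hd a
    obtain ⟨h1, h2⟩ := hσ d hd
    simp only [φ]
    split_ifs <;> rw [abs_le] <;> constructor <;> linarith
  let F : ℕ → ℝ := fun n => ∑ d ∈ D, φ d (n : ZMod d)
  have hlow : ∀ x ∈ X, (D.card : ℝ) / 2 ≤ F x := by
    intro x hx
    calc (D.card : ℝ) / 2 = ∑ d ∈ D, (1 / 2 : ℝ) := by simp; ring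
      _ ≤ F x := Finset.sum_le_sum fun d hd => by
          obtain ⟨h1, h2⟩ := hσ d hd
          have : (x : ZMod d) ∈ S d := Finset.mem_image_of_mem _ hx
          simp only [φ, this, if_true]
          linarith
  have hcorr : ∀ d ∈ D, ∀ e ∈ D,
      ∑ n ∈ range Y, φ d (n : ZMod d) * φ e (n : ZMod e)
        ≤ (if d = e then (Y : ℝ) else 0) + (V : ℝ) ^ 2 := by
    intro d hd e he
    have hb : ∀ n : ℕ, |φ d (n : ZMod d) * φ e (n : ZMod e)| ≤ 1 := by
      intro n
      rw [abs_mul]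
      exact mul_le_one₀ (hφb d hd _) (abs_nonneg _) (hφb e he _)
    split_ifs with hde
    · calc ∑ n ∈ range Y, φ d (n : ZMod d) * φ e (n : ZMod e) ≤ ∑ n ∈ range Y, (1 : ℝ) :=
            Finset.sum_le_sum fun n _ => (le_abs_self _).trans (hb n)
        _ = Y := by simp
        _ ≤ Y + (V : ℝ) ^ 2 := by nlinarith [sq_nonneg (V : ℝ)]
    · haveI : NeZero d := ⟨(hpos d hd).ne'⟩
      haveI : NeZero e := ⟨(hpos e he).ne'⟩
      have hz : ∑ b, φ e b = 0 := by
        have h1 : (e : ℝ) ≠ 0 := by exact_mod_cast (hpos e he).ne'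
        simp only [φ, Finset.sum_sub_distrib, Finset.sum_const, Finset.card_univ, ZMod.card,
          nsmul_eq_mul]
        rw [Finset.sum_ite_mem]
        simp
        field_simp
        ring
      have h0 := sum_mul_eq_zero d e (hcop d hd e he hde) (φ d) (φ e) hz
      have := abs_sum_periodic_le (fun n => φ d (n : ZMod d) * φ e (n : ZMod e)) (d * e)
        (Nat.mul_pos (hpos d hd) (hpos e he)) (fun n => by push_cast; simp) h0 hb Y
      have h2 : ((d * e : ℕ) : ℝ) ≤ (V : ℝ) ^ 2 := by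
        have : d * e ≤ V ^ 2 := by rw [sq]; exact Nat.mul_le_mul (hV d hd) (hV e he)
        exact_mod_cast this
      linarith [le_abs_self (∑ n ∈ range Y, φ d (n : ZMod d) * φ e (n : ZMod e))]
  have hup : ∑ n ∈ range Y, F n ^ 2 ≤ D.card * Y + (D.card : ℝ) ^ 2 * (V : ℝ) ^ 2 := by
    calc ∑ n ∈ range Y, F n ^ 2
        = ∑ n ∈ range Y, ∑ d ∈ D, ∑ e ∈ D, φ d (n : ZMod d) * φ e (n : ZMod e) := by
          refine Finset.sum_congr rfl fun n _ => ?_
          rw [sq, Finset.sum_mul_sum]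
      _ = ∑ d ∈ D, ∑ e ∈ D, ∑ n ∈ range Y, φ d (n : ZMod d) * φ e (n : ZMod e) := by
          rw [Finset.sum_comm]
          refine Finset.sum_congr rfl fun d _ => Finset.sum_comm
      _ ≤ ∑ d ∈ D, ∑ e ∈ D, ((if d = e then (Y : ℝ) else 0) + (V : ℝ) ^ 2) :=
          Finset.sum_le_sum fun d hd => Finset.sum_le_sum fun e he => hcorr d hd e he
      _ = ∑ d ∈ D, ((Y : ℝ) + D.card * (V : ℝ) ^ 2) := by
          refine Finset.sum_congr rfl fun d hd => ?_
          rw [Finset.sum_add_distrib, Finset.sum_ite_eq]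
          simp [hd]
      _ = D.card * Y + (D.card : ℝ) ^ 2 * (V : ℝ) ^ 2 := by
          simp; ring
  have hlo : (X.card : ℝ) * ((D.card : ℝ) / 2) ^ 2 ≤ ∑ n ∈ range Y, F n ^ 2 := by
    calc (X.card : ℝ) * ((D.card : ℝ) / 2) ^ 2 = ∑ x ∈ X, ((D.card : ℝ) / 2) ^ 2 := by simp
      _ ≤ ∑ x ∈ X, F x ^ 2 := Finset.sum_le_sum fun x hx =>
          pow_le_pow_left₀ (by positivity) (hlow x hx) 2
      _ ≤ ∑ n ∈ range Y, F n ^ 2 :=
          Finset.sum_le_sum_of_subset_of_nonneg (fun x hx => Finset.mem_range.2 (hX x hx))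
            (fun _ _ _ => sq_nonneg _)
  have hD : 0 < D.card := by
    rcases Nat.eq_zero_or_pos D.card with h | h
    · rw [h] at hbig; simp at hbig
    · exact h
  have hD' : (0 : ℝ) < D.card := by exact_mod_cast hD
  have hbig' : (4 : ℝ) * Y + 4 * D.card * (V : ℝ) ^ 2 < X.card * D.card := by exact_mod_cast hbig
  have := mul_lt_mul_of_pos_right hbig' hD'
  nlinarith

end Crest.Agent.R19
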