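import Mathlib
import Crest.Agent.R19.Rep
import Crest.Agent.R19.Variance
import Crest.Agent.R19.Jacobsthal
import Crest.Agent.R19.Digits

set_option autoImplicit false

namespace Crest.Agent.R19

open Finset

/-- One greedy step with denominator `D / A + 2`. -/
theorem greedy_step (A D : ℕ) (hA : 0 < A) (hD : 0 < D) :
    ∃ A' : ℕ, 0 < A' ∧ A' ≤ 2 * A ∧
      (A : ℚ) / D = 1 / ((D / A + 2 : ℕ) : ℚ) + (A' : ℚ) / ((D * (D / A + 2) : ℕ) : ℚ) ∧
      D * (D / A + 2) / A' + 2 ≤ (D / A + 2) ^ 2 ∧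
      (D / A + 2) ^ 2 ≤ 4 * (D * (D / A + 2) / A' + 2) := by
  set v := D / A with hv
  have h1 : A * v ≤ D := Nat.mul_div_le D A
  have h2 : D < A * (v + 1) := Nat.lt_mul_div_succ D hA
  obtain ⟨A', hA'⟩ : ∃ A', A * (v + 2) = D + A' := ⟨A * (v + 2) - D, by
    have : D ≤ A * (v + 2) := by nlinarith
    omega⟩
  have h3 : A < A' := by nlinarith
  have h4 : A' ≤ 2 * A := by nlinarith
  have hA'0 : 0 < A' := by omega
  refine ⟨A', hA'0, h4, ?_, ?_, ?_⟩
  · have hD' : (D : ℚ) ≠ 0 := by exact_mod_cast hD.ne'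
    have e : (A : ℚ) * (v + 2) = D + A' := by exact_mod_cast hA'
    push_cast
    field_simp
    linarith
  · have : D * (v + 2) / A' < (v + 1) * (v + 2) := by
      rw [Nat.div_lt_iff_lt_mul hA'0]
      have : D < (v + 1) * A' := by nlinarith
      nlinarith
    nlinarith
  · set v' := D * (v + 2) / A' with hv'
    have h5 : D * (v + 2) < A' * (v' + 1) := Nat.lt_mul_div_succ _ hA'0
    have h6 : A * (v * (v + 2)) < A * (2 * (v' + 1)) := by nlinarith
    have h7 : v * (v + 2) < 2 * (v' + 1) := Nat.lt_of_mul_lt_mul_left h6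
    nlinarith

theorem greedy (Θ j : ℕ) : ∀ (A D : ℕ), 0 < A → 0 < D →
    Θ * 4 ^ 2 ^ j ≤ 4 * (D / A + 2) ^ 2 ^ j → D / A + 2 ≤ Θ ^ 2 →
    ∃ A' D' : ℕ, 0 < A' ∧ A' ≤ 2 ^ j * A ∧ 0 < D' ∧ Rep ((A : ℚ) / D - (A' : ℚ) / D') j ∧
      Θ ≤ D' / A' + 2 ∧ D' / A' + 2 ≤ Θ ^ 2 := by
  induction j with
  | zero =>
    intro A D hA hD h1 h2
    refine ⟨A, D, hA, by simp, hD, by simpa using Rep.zero 0, ?_, h2⟩
    simp at h1; omega
  | succ j ih =>
    intro A D hA hD h1 h2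
    by_cases hΘ : Θ ≤ D / A + 2
    · refine ⟨A, D, hA, ?_, hD, by simpa using Rep.zero _, hΘ, h2⟩
      exact Nat.le_mul_of_pos_left _ (by positivity)
    · push Not at hΘ
      obtain ⟨A1, a1, a2, a3, a4, a5⟩ := greedy_step A D hA hD
      set n := D / A + 2 with hn
      obtain ⟨A', D', b1, b2, b3, b4, b5, b6⟩ := ih A1 (D * n) a1 (by positivity) (by
        have e1 : 4 ^ 2 ^ (j + 1) = 4 ^ 2 ^ j * 4 ^ 2 ^ j := by rw [← pow_add]; congr 1; ring
        have e2 : n ^ 2 ^ (j + 1) = (n ^ 2) ^ 2 ^ j := by rw [← pow_mul]; congr 1; ring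
        have e3 : (n ^ 2) ^ 2 ^ j ≤ (4 * (D * n / A1 + 2)) ^ 2 ^ j := Nat.pow_le_pow_left a5 _
        rw [mul_pow] at e3
        rw [e1, e2] at h1
        have : 4 ^ 2 ^ j * (Θ * 4 ^ 2 ^ j) ≤ 4 ^ 2 ^ j * (4 * (D * n / A1 + 2) ^ 2 ^ j) := by
          nlinarith
        exact Nat.le_of_mul_le_mul_left this (by positivity))
        (a4.trans (Nat.pow_le_pow_left hΘ.le 2))
      refine ⟨A', D', b1, ?_, b3, ?_, b5, b6⟩
      · rw [pow_succ]; nlinarith [show 0 < 2 ^ j by positivity]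
      · have := (Rep.one n).add b4
        rw [add_comm 1 j] at this
        convert this using 1
        rw [a3]; ring

/-- The last step: one more unit fraction, then the variance lemma. -/
theorem final_step (A D W G k K E H Y : ℕ) (X : Finset ℕ) (hA : 0 < A) (hD : 0 < D) (hW : 0 < W)
    (hG : 0 < G) (hX : ∀ x ∈ X, SD (G * W) k x ∧ x < Y ∧ 0 < x) (hK : 2 ≤ K)
    (hE : A * G * (K ^ 171 + 1) ≤ 2 ^ E) (hHE : H * E ≤ K)
    (hbig : 4 * Y + 4 * H * (2 ^ E) ^ 2 < X.card * H) :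
    Rep ((A : ℚ) / ((D * W : ℕ) : ℚ)) (1 + (k + k)) := by
  set g := Nat.gcd (A * G) D with hg
  have hg0 : 0 < g := Nat.gcd_pos_of_pos_right _ hD
  obtain ⟨q, B, hcop, hq, hB⟩ := Nat.exists_coprime (A * G) D
  rw [← hg] at hq hB
  have hq0 : 0 < q := Nat.pos_of_mul_pos_right (hq ▸ Nat.mul_pos hA hG)
  have hB0 : 0 < B := Nat.pos_of_mul_pos_right (hB ▸ hD)
  have hqle : q ≤ A * G := by rw [hq]; exact Nat.le_mul_of_pos_right _ hg0
  have h1 : q * (B / q) ≤ B := Nat.mul_div_le B q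
  have h2 : B < q * (B / q + 1) := Nat.lt_mul_div_succ B hq0
  obtain ⟨ρ, hρ⟩ : ∃ ρ, q * (B / q + 1) = B + ρ := ⟨q * (B / q + 1) - B, by omega⟩
  have hρ0 : 0 < ρ := by omega
  have hρq : ρ ≤ q := by nlinarith
  have hρc : Nat.Coprime ρ q := by
    rw [Nat.coprime_iff_gcd_eq_one]
    have a : Nat.gcd ρ q ∣ B := by
      have a1 : Nat.gcd ρ q ∣ B + ρ := hρ ▸ Dvd.dvd.mul_right (Nat.gcd_dvd_right ρ q) _
      exact (Nat.dvd_add_left (Nat.gcd_dvd_left ρ q)).1 a1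
    have := Nat.dvd_gcd (Nat.gcd_dvd_right ρ q) a
    rw [hcop] at this
    exact Nat.dvd_one.1 this
  obtain ⟨F, hF1, hF2, hF3⟩ := exists_coprime_family q ρ K E H (2 ^ E) hq0 hρ0 hρq hρc hK
    ((Nat.mul_le_mul_right _ hqle).trans hE) le_rfl hHE
  obtain ⟨d, hd, x, hx, x', hx', c, hc⟩ := exists_dvd_add X F Y (2 ^ E) (fun x hx => (hX x hx).2.1)
    (fun d hd => by have := (hF2 d hd).1; omega) (fun d hd => (hF2 d hd).2.1) hF3
    (by rw [hF1]; exact hbig)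
  obtain ⟨hd2, -, h, hh⟩ := hF2 d hd
  have hc0 : 0 < c := by
    have := (hX x hx).2.2
    rcases Nat.eq_zero_or_pos c with h0 | h0
    · rw [h0] at hc; omega
    · exact h0
  set ν := B / q + 1 + h with hν
  have hν0 : 0 < ν := by positivity
  have hqν : q * ν = B + d := by rw [hν, mul_add, hρ, hh]; ring
  have r1 := ((hX x hx).1.add (hX x' hx').1) (G * W * (B * ν * c)) (Dvd.intro _ rfl)
    (by positivity)
  have r2 := (Rep.one (G * W * ν)).add r1
  convert r2 using 1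
  rw [hc]
  have e1 : (A : ℚ) * G = q * g := by exact_mod_cast hq
  have e2 : (D : ℚ) = B * g := by exact_mod_cast hB
  have e3 : (q : ℚ) * ν = B + d := by exact_mod_cast hqν
  have p1 : (G : ℚ) ≠ 0 := by positivity
  have p2 : (W : ℚ) ≠ 0 := by positivity
  have p3 : (B : ℚ) ≠ 0 := by positivity
  have p4 : (g : ℚ) ≠ 0 := by positivity
  have p5 : (ν : ℚ) ≠ 0 := by positivity
  have p6 : (c : ℚ) ≠ 0 := by positivity
  push_cast
  rw [e2]
  field_simp
  linear_combination ν * e1 + g * e3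

/-- Two more greedy steps supply the free multipliers. -/
theorem core (A D G k K E H : ℕ) (X : Finset ℕ) (hA : 0 < A) (hD : 0 < D)
    (hG : 0 < G) (hX : ∀ x ∈ X, SD G k x ∧ x ≤ G ∧ 0 < x) (hGn : 8 * G ≤ D / A + 2) (hK : 2 ≤ K)
    (hE : 4 * A * G * (K ^ 171 + 1) ≤ 2 ^ E) (hHE : H * E ≤ K)
    (hbig : 4 * (D / A + 2) ^ 4 + 4 * H * (2 ^ E) ^ 2 < X.card ^ 4 * H) :
    Rep ((A : ℚ) / D) (3 + 8 * k) := by
  obtain ⟨A1, a1, a2, a3, a4, a5⟩ := greedy_step A D hA hD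
  set n := D / A + 2 with hn
  have hn0 : 0 < n := by omega
  obtain ⟨A2, b1, b2, b3, -, -⟩ := greedy_step A1 (D * n) a1 (by positivity)
  set n' := D * n / A1 + 2 with hn'
  have hn0' : 0 < n' := by positivity
  obtain ⟨X1, c1, c2⟩ := double X G k G n (by omega) hX
  have hlt : (n + 1) * G < n' := by nlinarith
  obtain ⟨X2, d1, d2⟩ := double X1 (G * n) (k + k) ((n + 1) * G) n' hlt c2
  have hfin := final_step A2 D (n * n') G (k + k + (k + k)) K E H (n ^ 4) X2 b1 hD (by positivity)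
    hG (fun x hx => by
      obtain ⟨e1, e2, e3⟩ := d2 x hx
      refine ⟨by rwa [← mul_assoc], ?_, e3⟩
      have : (n' + 1) * ((n + 1) * G + 1) ≤ (n' + 1) * n' := Nat.mul_le_mul_left _ hlt
      have h2 : n' * n' ≤ n ^ 2 * n ^ 2 := Nat.mul_le_mul a4 a4
      nlinarith) hK
    (le_trans (by gcongr; omega) hE) hHE (by rw [d1, c1, ← pow_mul X.card]; exact hbig)
  have := (Rep.one n).add ((Rep.one n').add hfin)
  rw [a3, b3, mul_assoc]
  refine this.mono (by omega)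

end Crest.Agent.R19
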