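import Mathlib
import Crest.Agent.R19.Core

set_option autoImplicit false

namespace Crest.Agent.R19

open Finset

theorem growth (s : ℕ) (hs : 30 ≤ s) : (2 * s + 4) * (131072 * s) ≤ 2 ^ s := by
  induction s, hs using Nat.le_induction with
  | base => norm_num
  | succ s hs ih => rw [pow_succ]; nlinarith

/-- Representation of a small fraction with moderate numerator. -/
theorem small_rep (A D N s a : ℕ) (hA : 0 < A) (hD : 0 < D) (hs : 30 ≤ s)
    (h1 : 2 ^ N ≤ D / A + 2) (h2 : D / A + 2 < 2 ^ (N + 1))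
    (h3 : 16384 * 2 ^ s ≤ N) (h4 : N < 16384 * 2 ^ (s + 1)) (hAa : A ≤ 2 ^ a)
    (ha : 2 * (a + 2) ≤ N) : Rep ((A : ℚ) / D) (3 + 8 * (131072 * s)) := by
  have hg := growth s hs
  set S := 2 ^ s with hS
  have hS1 : 2 ^ (s + 1) = 2 * S := by rw [pow_succ]; ring
  rw [hS1] at h4
  set t := S / (2 * s) with ht
  have ht1 : 2 * s * t ≤ S := Nat.mul_div_le S (2 * s)
  have ht2 : S < 2 * s * (t + 1) := Nat.lt_mul_div_succ S (by omega)
  have ht3 : 2 * s + 4 ≤ t := by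
    rw [ht, Nat.le_div_iff_mul_le (by omega)]
    nlinarith
  have hS2 : 64 * s ≤ S := by nlinarith
  have htS : t ≤ S := by nlinarith
  obtain ⟨N', hN'⟩ : ∃ N', N = N' + 3 + 2 * S := ⟨N - 3 - 2 * S, by omega⟩
  set k := N' / t with hk
  have hk1 : t * k ≤ N' := Nat.mul_div_le N' t
  have hk2 : N' < t * (k + 1) := Nat.lt_mul_div_succ N' (by omega)
  have hk3 : k ≤ 131072 * s := by
    have a1 : S ≤ 4 * s * t := by nlinarith
    have a2 : t * k ≤ t * (131072 * s) := by nlinarith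
    exact Nat.le_of_mul_le_mul_left a2 (by omega)
  have hk0 : 0 < k := by
    rcases Nat.eq_zero_or_pos k with h | h
    · rw [h] at hk2; omega
    · exact h
  obtain ⟨G, X, hG0, hG, hXc, hX⟩ := dense0 s t k (by omega) ht1 ht3
  rw [hS1] at hG
  obtain ⟨u, hu⟩ := Nat.exists_eq_add_of_le ht3
  have hu' : t - (2 * s + 4) = u := by omega
  rw [hu'] at hXc
  obtain ⟨R, hR⟩ : ∃ R, N = R + 5 * S + 1 := ⟨N - 5 * S - 1, by omega⟩
  have huk : R + 1 ≤ u * k := by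
    have a1 : (2 * s + 4) * k ≤ S := (Nat.mul_le_mul_left _ hk3).trans hg
    have a2 : t * k = (2 * s + 4) * k + u * k := by rw [hu]; ring
    have a3 : t * (k + 1) = t * k + t := by ring
    omega
  have hG' : G ≤ 2 ^ (N' + 2 * S) := hG.trans (Nat.pow_le_pow_right (by norm_num) (by omega))
  have := core A D G k (2 ^ (30 * S)) (2 * R) (2 ^ (20 * S + 8)) X hA hD hG0
    (fun x hx => ⟨(hX x hx).1, (hX x hx).2.1, (hX x hx).2.2 hk0⟩) ?_ ?_ ?_ ?_ ?_
  · exact this.mono (by omega)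
  · refine le_trans ?_ h1
    calc 8 * G ≤ 2 ^ 3 * 2 ^ (N' + 2 * S) := Nat.mul_le_mul (by norm_num) hG'
      _ = 2 ^ N := by rw [← pow_add]; congr 1; omega
  · calc 2 = 2 ^ 1 := by norm_num
      _ ≤ _ := Nat.pow_le_pow_right (by norm_num) (by omega)
  · have a1 : (2 ^ (30 * S)) ^ 171 + 1 ≤ 2 ^ (5130 * S + 1) := by
      rw [← pow_mul, pow_succ, show 30 * S * 171 = 5130 * S by ring]
      have : 1 ≤ 2 ^ (5130 * S) := Nat.one_le_two_pow
      omega
    calc 4 * A * G * ((2 ^ (30 * S)) ^ 171 + 1)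
        ≤ 2 ^ 2 * 2 ^ a * 2 ^ (N' + 2 * S) * 2 ^ (5130 * S + 1) := by gcongr; norm_num
      _ = 2 ^ (2 + a + (N' + 2 * S) + (5130 * S + 1)) := by
          rw [← pow_add, ← pow_add, ← pow_add]
      _ ≤ _ := Nat.pow_le_pow_right (by norm_num) (by omega)
  · have a1 : 2 * R ≤ 2 ^ (5 * S) := by
      have b1 : 65536 ≤ S := by nlinarith
      calc 2 * R ≤ S * S := by nlinarith
        _ = 2 ^ (2 * s) := by rw [hS, ← pow_add]; congr 1; ring
        _ ≤ _ := Nat.pow_le_pow_right (by norm_num) (by omega)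
    calc 2 ^ (20 * S + 8) * (2 * R) ≤ 2 ^ (20 * S + 8) * 2 ^ (5 * S) := by gcongr
      _ = 2 ^ (20 * S + 8 + 5 * S) := by rw [← pow_add]
      _ ≤ _ := Nat.pow_le_pow_right (by norm_num) (by omega)
  · have a1 : (D / A + 2) ^ 4 ≤ (2 ^ (N + 1)) ^ 4 := Nat.pow_le_pow_left h2.le 4
    have a2 : (2 ^ (R + 1)) ^ 4 ≤ X.card ^ 4 :=
      Nat.pow_le_pow_left ((Nat.pow_le_pow_right (by norm_num) huk).trans hXc) 4
    have e1 : (2 ^ (N + 1)) ^ 4 = 2 ^ (4 * R + 20 * S) * 256 := by rw [hR]; ring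
    have e2 : 4 * 2 ^ (20 * S + 8) * (2 ^ (2 * R)) ^ 2 = 2 ^ (4 * R + 20 * S) * 1024 := by ring
    have e3 : (2 ^ (R + 1)) ^ 4 * 2 ^ (20 * S + 8) = 2 ^ (4 * R + 20 * S) * 4096 := by ring
    have a3 := Nat.mul_le_mul_right (2 ^ (20 * S + 8)) a2
    have a4 : 0 < 2 ^ (4 * R + 20 * S) := by positivity
    rw [e1] at a1
    rw [e3] at a3
    rw [e2]
    omega

/-- The representation, with the number of terms bounded through binary logarithms. -/
theorem rep_main (a b β l : ℕ) (ha : 0 < a) (hab : a < b) (hb : b < 2 ^ β)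
    (hβ : 2 ^ 42 ≤ β) (hl1 : 2 ^ l ≤ β) (hl2 : β < 2 ^ (l + 1)) :
    Rep ((a : ℚ) / b) (16777216 * (l + 4)) := by
  have hb0 : 0 < b := by omega
  have hn : 8 ≤ 8 * b / a + 2 := by
    have : 8 ≤ 8 * b / a := by rw [Nat.le_div_iff_mul_le ha]; omega
    omega
  have hl : 42 ≤ l := by
    have : 2 ^ 42 < 2 ^ (l + 1) := hβ.trans_lt hl2
    have := (Nat.pow_lt_pow_iff_right (by norm_num)).1 this
    omega
  have hlβ : l + 5 ≤ β := by
    refine le_trans ?_ hl1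
    obtain ⟨m, rfl⟩ : ∃ m, l = m + 3 := ⟨l - 3, by omega⟩
    have : m < 2 ^ m := Nat.lt_two_pow_self
    rw [pow_add]; omega
  obtain ⟨A, D, hA, hAa, hD, hrep, hΘ1, hΘ2⟩ := greedy (2 ^ (4 * β)) (l + 3) a (8 * b) ha
    (by omega) (by
      have e1 : 2 ^ (4 * β) ≤ 2 ^ 2 ^ (l + 3) := by
        refine Nat.pow_le_pow_right (by norm_num) ?_
        have : 2 ^ (l + 3) = 4 * 2 ^ (l + 1) := by ring
        omega
      calc 2 ^ (4 * β) * 4 ^ 2 ^ (l + 3) ≤ 2 ^ 2 ^ (l + 3) * 4 ^ 2 ^ (l + 3) := by gcongr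
        _ = 8 ^ 2 ^ (l + 3) := (mul_pow 2 4 _).symm
        _ ≤ (8 * b / a + 2) ^ 2 ^ (l + 3) := Nat.pow_le_pow_left hn _
        _ ≤ _ := by omega) (by
      have e1 : 8 * b / a ≤ 8 * b := Nat.div_le_self _ _
      have e2 : 2 ^ (β + 4) ≤ (2 ^ (4 * β)) ^ 2 := by
        rw [← pow_mul]; exact Nat.pow_le_pow_right (by norm_num) (by omega)
      rw [pow_add] at e2
      omega)
  set Z := D / A + 2 with hZ
  have hZ0 : Z ≠ 0 := by positivity
  set N := Nat.log 2 Z with hN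
  have h1 : 2 ^ N ≤ Z := Nat.pow_log_le_self 2 hZ0
  have h2 : Z < 2 ^ (N + 1) := Nat.lt_pow_succ_log_self (by norm_num) Z
  have hN1 : 4 * β ≤ N := by
    have : 2 ^ (4 * β) < 2 ^ (N + 1) := hΘ1.trans_lt h2
    have := (Nat.pow_lt_pow_iff_right (by norm_num)).1 this
    omega
  have hN2 : N ≤ 8 * β := by
    rw [← pow_mul] at hΘ2
    have := (Nat.pow_le_pow_iff_right (by norm_num)).1 (h1.trans hΘ2)
    omega
  have hq : 2 ^ 30 ≤ N / 16384 := by
    rw [Nat.le_div_iff_mul_le (by norm_num)]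
    omega
  set s := Nat.log 2 (N / 16384) with hs
  have h3 : 2 ^ s ≤ N / 16384 := Nat.pow_log_le_self 2 (by omega)
  have h4 : N / 16384 < 2 ^ (s + 1) := Nat.lt_pow_succ_log_self (by norm_num) _
  have hs1 : 30 ≤ s := by
    have : 2 ^ 30 < 2 ^ (s + 1) := hq.trans_lt h4
    have := (Nat.pow_lt_pow_iff_right (by norm_num)).1 this
    omega
  have hs2 : s ≤ l + 4 := by
    have e : 2 ^ (l + 4) = 8 * 2 ^ (l + 1) := by ring
    have : 2 ^ s < 2 ^ (l + 4) := by omega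
    exact ((Nat.pow_lt_pow_iff_right (by norm_num)).1 this).le
  have r1 := small_rep A D N s (l + 3 + β) hA hD hs1 h1 h2 (by omega) (by omega)
    (by rw [pow_add]; exact hAa.trans (Nat.mul_le_mul_left _ (by omega))) (by omega)
  have r2 := (hrep.add r1).nsmul 8
  have e : ((8 : ℕ) : ℚ) * ((a : ℚ) / ((8 * b : ℕ) : ℚ) - (A : ℚ) / D + (A : ℚ) / D) = a / b := by
    have : (b : ℚ) ≠ 0 := by positivity
    push_cast; field_simp; ring
  rw [e] at r2
  exact r2.mono (by omega)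

theorem log_bound (b β l : ℕ) (hb : 2 ^ β ≤ 2 * b) (hβ : 8 ≤ β) (hl : 2 ^ l ≤ β) :
    (l : ℝ) + 4 ≤ 10 * Real.log (Real.log b) := by
  have h2 : (0.69 : ℝ) < Real.log 2 := by linarith [Real.log_two_gt_d9]
  have hb0 : 0 < b := by
    have : 0 < 2 ^ β := by positivity
    omega
  have hb0' : (0 : ℝ) < b := by exact_mod_cast hb0
  have hβ' : (8 : ℝ) ≤ β := by exact_mod_cast hβ
  have h1 : (β : ℝ) * Real.log 2 ≤ Real.log 2 + Real.log b := by
    rw [← Real.log_pow, ← Real.log_mul (by norm_num) hb0'.ne']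
    refine Real.log_le_log (by positivity) ?_
    exact_mod_cast hb
  have h3 : (β : ℝ) / 2 ≤ Real.log b := by nlinarith
  have h4 : (l : ℝ) * Real.log 2 ≤ Real.log 2 + Real.log (Real.log b) := by
    rw [← Real.log_pow, ← Real.log_mul (by norm_num) (by linarith)]
    refine Real.log_le_log (by positivity) ?_
    have : ((2 : ℝ)) ^ l ≤ β := by exact_mod_cast hl
    linarith
  have h5 : 2 * Real.log 2 ≤ Real.log (Real.log b) := by
    have : Real.log 4 = 2 * Real.log 2 := by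
      rw [show (4 : ℝ) = 2 ^ 2 by norm_num, Real.log_pow]; norm_num
    rw [← this]
    exact Real.log_le_log (by norm_num) (by linarith)
  have h6 : ((l : ℝ) - 1) * Real.log 2 ≤ Real.log (Real.log b) := by linarith
  by_cases hl1 : (l : ℝ) ≤ 1
  · linarith
  · push Not at hl1
    have : ((l : ℝ) - 1) * 0.69 ≤ ((l : ℝ) - 1) * Real.log 2 := by gcongr
    linarith

theorem main_aux (β0 : ℕ) (h0 : 2 ^ 42 ≤ β0) (a b : ℕ) (hb : 2 ^ β0 ≤ b) (ha : 1 ≤ a)
    (hab : a < b) :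
    ∃ S : Finset ℕ, (∀ n ∈ S, 2 ≤ n) ∧
      (S.card : ℝ) ≤ 167772160 * Real.log (Real.log (b : ℝ)) ∧
        ∑ n ∈ S, (1 : ℚ) / (n : ℚ) = (a : ℚ) / (b : ℚ) := by
  have hb0 : b ≠ 0 := by omega
  set β := Nat.log 2 b + 1 with hβ
  have h1 : b < 2 ^ β := Nat.lt_pow_succ_log_self (by norm_num) b
  have h2 : 2 ^ β ≤ 2 * b := by
    have := Nat.pow_log_le_self 2 hb0
    rw [pow_succ]; omega
  have h3 : β0 ≤ β := ((Nat.pow_lt_pow_iff_right (by norm_num)).1 (hb.trans_lt h1)).le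
  have h4 : 2 ^ 42 ≤ β := h0.trans h3
  have h5 : 2 ^ Nat.log 2 β ≤ β := Nat.pow_log_le_self 2 (by omega)
  have h6 : β < 2 ^ (Nat.log 2 β + 1) := Nat.lt_pow_succ_log_self (by norm_num) β
  have r := rep_main a b β _ (by omega) hab h1 h4 h5 h6
  have hlt : (a : ℚ) / b < 1 := by
    rw [div_lt_one (by positivity)]; exact_mod_cast hab
  obtain ⟨S, hS1, hS2, hS3⟩ := r.distinct hlt
  refine ⟨S, hS1, ?_, hS3⟩
  have h7 := log_bound b β _ h2 (by omega) h5
  have h8 : (S.card : ℝ) ≤ 16777216 * ((Nat.log 2 β : ℝ) + 4) := by exact_mod_cast hS2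
  linarith

end Crest.Agent.R19
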